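import Vale.Agent.P209.H687.Strip1

set_option linter.all false

/-!
# Injectivity of the strip map of the model `M` (from the rows of `H687/Defs.lean`)
-/

namespace Vale.Agent.P209.H974.SI

open Vale.Agent.P209 H684 H578 H721 H974 H686 H687
open scoped ContDiff

/-! ### generalities -/

theorem swp_inj {Z Z' : Fin 3 → ℂ} (h : swp Z = swp Z') : Z = Z' := by
  rw [← swp_swp Z, h, swp_swp]

/-! ### the step function -/

section step

variable {η : ℝ} {t : ℝ → ℝ}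

theorem t_mono (ht : StepQ η t) : Monotone t :=
  monotone_of_deriv_nonneg (ht.smooth.differentiable (by simp)) ht.deriv_nonneg

theorem t_nonpos (ht : StepQ η t) {q : ℝ} (hq : q ≤ 0) : t q ≤ 0 := by
  have h1 := ht.nonneg (-q) (by linarith)
  rw [ht.odd] at h1
  linarith

/-- strict monotonicity of `q + t q * Λ` -/
theorem f_strict (ht : StepQ η t) {Λ : ℝ} (hΛ : 0 ≤ Λ) {q q' : ℝ}
    (h : q < q') : q + t q * Λ < q' + t q' * Λ := by
  have h1 := t_mono ht h.le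
  nlinarith

theorem f_inj (ht : StepQ η t) {Λ : ℝ} (hΛ : 0 ≤ Λ) {q q' : ℝ}
    (h : q + t q * Λ = q' + t q' * Λ) : q = q' := by
  rcases lt_trichotomy q q' with h1 | h1 | h1
  · exact absurd h (f_strict ht hΛ h1).ne
  · exact h1
  · exact absurd h.symm (f_strict ht hΛ h1).ne

theorem q_le (ht : StepQ η t) {Λ Λ' : ℝ} (h0 : 0 ≤ Λ') (hΛ : Λ' ≤ Λ) {q q' : ℝ}
    (h : q + t q * Λ = q' + t q' * Λ') (hq : q ≤ 0) : q' ≤ q := by
  by_contra hcon
  push Not at hcon
  have h1 := f_strict ht h0 hcon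
  have h2 := t_nonpos ht hq
  nlinarith

theorem q_ge (ht : StepQ η t) {Λ Λ' : ℝ} (h0 : 0 ≤ Λ') (hΛ : Λ' ≤ Λ) {q q' : ℝ}
    (h : q + t q * Λ = q' + t q' * Λ') (hq : 0 ≤ q) : q ≤ q' := by
  by_contra hcon
  push Not at hcon
  have h1 := f_strict ht h0 hcon
  have h2 := ht.nonneg q hq
  nlinarith

end step

/-! ### the change of time -/

section time

variable {R c m η : ℝ} {t : ℝ → ℝ}

theorem Lam_contDiff (c m : ℝ) : ContDiff ℝ ∞ (Lam c m) := by
  unfold Lam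
  have h0 : ContDiff ℝ ∞ (fun u : Fin 2 → ℝ => u 0) := contDiff_apply ℝ ℝ (0 : Fin 2)
  have h1 : ContDiff ℝ ∞ (fun u : Fin 2 → ℝ => u 1) := contDiff_apply ℝ ℝ (1 : Fin 2)
  exact (((contDiff_const.mul h0).add h1).add
    (contDiff_const.mul ((chi_contDiff _).comp ((h0.add h1).sub contDiff_const)))).add contDiff_const

theorem Cm_contDiff (R c m : ℝ) : ContDiff ℝ ∞ (Cm R c m) := by
  have h0 : ContDiff ℝ ∞ (fun u : Fin 2 → ℝ => u 0) := contDiff_apply ℝ ℝ (0 : Fin 2)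
  have h1 : ContDiff ℝ ∞ (fun u : Fin 2 → ℝ => u 1) := contDiff_apply ℝ ℝ (1 : Fin 2)
  unfold Cm Pm
  exact ((contDiff_const.sub (contDiff_const.mul h0)).sub (contDiff_const.mul h1)).sub
    (Lam_contDiff c m)

theorem FL_contDiff (ht : StepQ η t) (R c m : ℝ) : ContDiff ℝ ∞ (FL t R c m) := by
  unfold FL
  have h1 : ContDiff ℝ ∞ (fun q : ℝ × (Fin 2 → ℝ) => q.1 - Cm R c m q.2 / 2) :=
    contDiff_fst.sub (((Cm_contDiff R c m).comp contDiff_snd).div_const 2)
  exact h1.add ((ht.smooth.comp h1).mul ((Lam_contDiff c m).comp contDiff_snd))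

theorem FR_contDiff (ht : StepQ η t) (R c m : ℝ) : ContDiff ℝ ∞ (FR t R c m) := by
  unfold FR
  have h1 : ContDiff ℝ ∞ (fun q : ℝ × (Fin 2 → ℝ) => q.1 + Cm R c m q.2 / 2) :=
    contDiff_fst.add (((Cm_contDiff R c m).comp contDiff_snd).div_const 2)
  exact h1.add ((ht.smooth.comp h1).mul ((Lam_contDiff c m).comp contDiff_snd))

theorem Fp_eq_deriv {F : ℝ × (Fin 2 → ℝ) → ℝ} {q : ℝ × (Fin 2 → ℝ)} (hF : ContDiff ℝ ∞ F)
    {D : ℝ} (h : HasDerivAt (fun x => F (x, q.2)) D q.1) : Fp F q = D := by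
  have h1 : HasFDerivAt F (fderiv ℝ F (q.1, q.2)) (q.1, q.2) :=
    (hF.differentiable (by simp) _).hasFDerivAt
  have h2 : HasDerivAt (fun x : ℝ => (x, q.2)) ((1 : ℝ), (0 : Fin 2 → ℝ)) q.1 :=
    (hasDerivAt_id q.1).prodMk (hasDerivAt_const q.1 q.2)
  have h3 := h1.comp_hasDerivAt q.1 h2
  exact h3.unique h

theorem FL_Fp (ht : StepQ η t) (q : ℝ × (Fin 2 → ℝ)) :
    Fp (FL t R c m) q = 1 + deriv t (q.1 - Cm R c m q.2 / 2) * Lam c m q.2 := by
  refine Fp_eq_deriv (FL_contDiff ht R c m) ?_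
  have h0 : HasDerivAt (fun x : ℝ => x - Cm R c m q.2 / 2) 1 q.1 :=
    (hasDerivAt_id q.1).sub_const _
  have h1 : HasDerivAt t (deriv t (q.1 - Cm R c m q.2 / 2)) (q.1 - Cm R c m q.2 / 2) :=
    (ht.smooth.differentiable (by simp) _).hasDerivAt
  have h2 := h1.comp q.1 h0
  have h3 := h0.add (h2.mul_const (Lam c m q.2))
  rw [mul_one] at h3
  exact h3

theorem FR_Fp (ht : StepQ η t) (q : ℝ × (Fin 2 → ℝ)) :
    Fp (FR t R c m) q = 1 + deriv t (q.1 + Cm R c m q.2 / 2) * Lam c m q.2 := by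
  refine Fp_eq_deriv (FR_contDiff ht R c m) ?_
  have h0 : HasDerivAt (fun x : ℝ => x + Cm R c m q.2 / 2) 1 q.1 :=
    (hasDerivAt_id q.1).add_const _
  have h1 : HasDerivAt t (deriv t (q.1 + Cm R c m q.2 / 2)) (q.1 + Cm R c m q.2 / 2) :=
    (ht.smooth.differentiable (by simp) _).hasDerivAt
  have h2 := h1.comp q.1 h0
  have h3 := h0.add (h2.mul_const (Lam c m q.2))
  rw [mul_one] at h3
  exact h3

end time

/-! ### the points of the middle chart -/

section mid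

variable {R c m η : ℝ} (D : Dat R c m η)

/-- what one reads off a point of the middle chart, where `Q = q + t q * Λ` -/
theorem read_mid (hMS : RowMS) (hH : Hyp R c m η) {v : Fin 3 → ℂ} (hv : v ∈ H687.DM R c m) {q θ : ℝ}
    (hre : (v 0).re = q + D.t q * Lam c m (uu v))
    (him : (v 0).im = θ / (1 + deriv D.t q * Lam c m (uu v))) :
    lim R (D.cM v) < (R - 2 * c) / 3 ∧ (q ≤ 0 → qim (D.cM v) ≤ q) ∧ (0 ≤ q → q ≤ qim (D.cM v)) ∧
      (0 < θ → θ < 1 → 0 < D.aM v ∧ D.aM v < 1) := by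
  obtain ⟨-, -, -, hl, Λ', hΛ0, hΛ, hq, ha⟩ := hMS R c m η D hH v hv
  have hpos := Lam_pos hH hv.1
  have e1 : qim (D.cM v) + D.t (qim (D.cM v)) * Λ' = (v 0).re := by
    rw [hq]; exact D.hqs.eq _ _ hΛ0.le
  rw [hre] at e1
  have h1 : q ≤ 0 → qim (D.cM v) ≤ q := fun h => q_le D.ht hΛ0.le hΛ e1.symm h
  have h2 : 0 ≤ q → q ≤ qim (D.cM v) := fun h => q_ge D.ht hΛ0.le hΛ e1.symm h
  refine ⟨hl, h1, h2, fun h3 h4 => ?_⟩
  have habs : |q| ≤ |qim (D.cM v)| := by
    rcases le_total q 0 with h | h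
    · rw [abs_of_nonpos h, abs_of_nonpos ((h1 h).trans h)]
      linarith [h1 h]
    · rw [abs_of_nonneg h, abs_of_nonneg (h.trans (h2 h))]
      exact h2 h
  have hd := D.ht.deriv_anti _ _ habs
  have hd0 := D.ht.deriv_nonneg q
  have hd1 := D.ht.deriv_nonneg (qim (D.cM v))
  have hA : 0 < 1 + deriv D.t q * Lam c m (uu v) := by positivity
  have hB : 0 < 1 + deriv D.t (qim (D.cM v)) * Λ' := by positivity
  have hAB : 1 + deriv D.t (qim (D.cM v)) * Λ' ≤ 1 + deriv D.t q * Lam c m (uu v) := by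
    have := mul_le_mul hd hΛ hΛ0.le hd0
    linarith
  rw [ha, him]
  constructor
  · positivity
  · rw [div_mul_eq_mul_div, div_lt_one hA]
    calc θ * (1 + deriv D.t (qim (D.cM v)) * Λ')
        < 1 * (1 + deriv D.t (qim (D.cM v)) * Λ') := mul_lt_mul_of_pos_right h4 hB
      _ ≤ 1 + deriv D.t q * Lam c m (uu v) := by rw [one_mul]; exact hAB

theorem vL_im (w : Fin 3 → ℂ) : (D.vL w 0).im =
    Int.fract (w 0).im / (1 + deriv D.t ((w 0).re - Cm R c m (uu w) / 2) * Lam c m (uu w)) := by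
  unfold Dat.vL
  rw [clift_im]
  unfold ctau
  rw [red_im, qq_red, FL_Fp D.ht]
  rfl

theorem vR_im (w : Fin 3 → ℂ) : (D.vR w 0).im =
    Int.fract (w 0).im / (1 + deriv D.t ((w 0).re + Cm R c m (uu w) / 2) * Lam c m (uu w)) := by
  unfold Dat.vR
  rw [clift_im]
  unfold ctau
  rw [red_im, qq_red, FR_Fp D.ht]
  rfl

theorem im_range {a b : ℝ} (h0 : 0 ≤ a) (h1 : a < 1) (hb : 0 ≤ b) :
    0 ≤ a / (1 + b) ∧ a / (1 + b) < 1 := by
  constructor
  · positivity
  · rw [div_lt_one (by positivity)]; linarith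

theorem vL_im_range (hH : Hyp R c m η) {w : Fin 3 → ℂ} (hu : uu w ∈ Vm R c m) :
    0 ≤ (D.vL w 0).im ∧ (D.vL w 0).im < 1 := by
  rw [vL_im]
  exact im_range (Int.fract_nonneg _) (Int.fract_lt_one _)
    (mul_nonneg (D.ht.deriv_nonneg _) (Lam_pos hH hu).le)

theorem vR_im_range (hH : Hyp R c m η) {w : Fin 3 → ℂ} (hu : uu w ∈ Vm R c m) :
    0 ≤ (D.vR w 0).im ∧ (D.vR w 0).im < 1 := by
  rw [vR_im]
  exact im_range (Int.fract_nonneg _) (Int.fract_lt_one _)
    (mul_nonneg (D.ht.deriv_nonneg _) (Lam_pos hH hu).le)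

end mid

/-! ### left and right points -/

section points

variable {R c m η : ℝ} (D : Dat R c m η)

/-- the properties of a point `v` on the left -/
structure LeftPt (v Z : Fin 3 → ℂ) : Prop where
  l : lim R Z ≤ (R - 2 * c) / 3 + 3 * m / 4
  q : qim Z ≤ 0
  im0 : 0 ≤ (v 0).im
  im1 : (v 0).im < 1
  chart : qim Z < -(η / 2) → v ∈ D.DX ∧ Z = D.cL v
  mid : -(η / 2) ≤ qim Z → v ∈ H687.DM R c m ∧ Z = D.cM v ∧ 0 < D.aM v ∧ D.aM v < 1

/-- the properties of a point `v` on the right -/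
structure RightPt (v Z : Fin 3 → ℂ) : Prop where
  l : lim R Z ≤ (R - 2 * c) / 3 + 3 * m / 4
  q : 0 < qim Z
  im0 : 0 ≤ (v 0).im
  im1 : (v 0).im < 1
  chart : η / 2 < qim Z → mir v ∈ D.DX ∧ Z = D.cR v
  mid : qim Z ≤ η / 2 → v ∈ H687.DM R c m ∧ Z = D.cM v ∧ 0 < D.aM v ∧ D.aM v < 1

/-- the left chart at the points of the left half -/
theorem cL_pt (hLA : RowLA) (hH : Hyp R c m η) {u : Fin 2 → ℝ} (hu : u ∈ Vm R c m)
    {p : ℝ} (hp : p ≤ Cm R c m u / 2)
    (hl : R - 2 * (u 0 + u 1) - p ≤ (R - 2 * c) / 3 + 3 * m / 4)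
    {v : Fin 3 → ℂ} (huv : uu v = u) (hre : (v 0).re = FL D.t R c m (p, u))
    (hk : -(m / 20) < kap R c v) :
    v ∈ D.DX ∧ lim R (D.cL v) ≤ (R - 2 * c) / 3 + 3 * m / 4 ∧ qim (D.cL v) < -(m / 40) := by
  have hm := hH.1
  have hη := hH.2.2.2.1
  have hη2 := hH.2.2.2.2
  have hΛ := Lam_pos hH hu
  have hq0 : p - Cm R c m u / 2 < -(m / 40) := by
    by_contra hcon
    push Not at hcon
    have h1 := FL_ge D hH (q := (p, u)) hu (by show -(m / 40) ≤ p - Cm R c m u / 2; exact hcon)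
    have h2 := corner_far hH hu (Q := -FL D.t R c m (p, u)) (by
      show _ ≤ m / 40 + Lam c m u / 2
      have : Lam c m (p, u).2 = Lam c m u := rfl
      rw [this] at h1
      linarith)
    rw [kap_eq, huv, hre] at hk
    linarith
  have hFL : FL D.t R c m (p, u) = p - Pm R c u / 2 :=
    FL_left D (by show p - Cm R c m u / 2 ≤ _; linarith)
  have hp1 : 5 * m / 4 ≤ p := by
    obtain ⟨_, _, _, h4⟩ := hu
    linarith [hH.2.2.1]
  have hCP : Cm R c m u = Pm R c u - Lam c m u := rfl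
  have hDL : v ∈ H687.DL R c m := by
    refine ⟨by rw [huv]; exact hu, ?_, ?_⟩
    · rw [huv, hre, hFL]; linarith
    · rw [huv, hre, hFL]; linarith
  obtain ⟨hDX, -, h1, h2⟩ := hLA R c m η D hH v hDL
  refine ⟨hDX, ?_⟩
  rcases le_total (kap R c v) (m / 20) with h3 | h3
  · obtain ⟨h4, h5⟩ := h1 h3
    rw [huv, hre, hFL] at h5
    exact ⟨by linarith, by linarith⟩
  · obtain ⟨h4, -, h5⟩ := h2 h3
    have e0 : uu v 0 = ar (v 1) := rfl
    have e1 : uu v 1 = ar (v 2) := rfl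
    constructor
    · rw [h4, ← e0, ← e1, kap_eq, huv, hre, hFL]
      unfold Pm
      linarith
    · rw [huv, hre, hFL] at h5
      have h6 : m ≤ min (p - Pm R c u / 2 + Pm R c u / 2) m := le_min (by linarith) le_rfl
      linarith

theorem IntA_frac {w : Fin 3 → ℂ} (h : ¬ IntA w) :
    0 < Int.fract (w 0).im ∧ Int.fract (w 0).im < 1 :=
  ⟨lt_of_le_of_ne (Int.fract_nonneg _) (Ne.symm h), Int.fract_lt_one _⟩

theorem leftPt (hLA : RowLA) (hMS : RowMS) (hML : RowML) (hH : Hyp R c m η) {w : Fin 3 → ℂ}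
    (hw : w ∈ StripE R c m η) (h0 : 0 < (w 0).re) (h1 : (w 0).re ≤ Cm R c m (uu w) / 2)
    (hl : ¬ (R - 2 * c) / 3 + 3 * m / 4 < lw R w) : LeftPt D (D.vL w) (D.G0 w) := by
  obtain ⟨hu, -, hI⟩ := hw
  have hm := hH.1
  have hη := hH.2.2.2.1
  have hη2 := hH.2.2.2.2
  have hG : D.G0 w = D.TopL (D.vL w) := by
    unfold Dat.G0
    rw [if_neg hl, if_pos h0]
  have hl' : R - 2 * (uu w 0 + uu w 1) - (w 0).re ≤ (R - 2 * c) / 3 + 3 * m / 4 := by
    rw [lw_eq, abs_of_pos h0] at hl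
    exact not_lt.1 hl
  obtain ⟨him0, him1⟩ := vL_im_range D hH hu
  rw [hG]
  unfold Dat.TopL
  by_cases hk : -(m / 20) < kap R c (D.vL w)
  · rw [if_pos hk]
    obtain ⟨a1, a2, a3⟩ := cL_pt D hLA hH hu h1 hl' (uu_vL D w) (vL_re D w) hk
    exact ⟨a2, by linarith, him0, him1, fun _ => ⟨a1, rfl⟩, fun h => by
      exfalso; linarith⟩
  · rw [if_neg hk]
    have hDM : D.vL w ∈ H687.DM R c m := by
      refine ⟨by rw [uu_vL]; exact hu, by linarith, ?_⟩
      have := kah_vL D hH hu (by linarith)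
      linarith
    obtain ⟨b1, b2, b3, b4⟩ := read_mid D hMS hH hDM (q := (w 0).re - Cm R c m (uu w) / 2)
      (θ := Int.fract (w 0).im) (by rw [vL_re, uu_vL]; rfl) (by rw [vL_im, uu_vL])
    have hq := b2 (by linarith)
    refine ⟨by linarith, by linarith, him0, him1, fun h => ?_, fun h => ?_⟩
    · obtain ⟨c1, c2⟩ := (hML R c m η D hH _ hDM).2.2.1 h
      exact ⟨c2, c1⟩
    · have hnI : ¬ IntA w := by
        intro hi
        have h5 := hI hi
        rw [abs_of_pos h0] at h5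
        linarith
      obtain ⟨d1, d2⟩ := IntA_frac hnI
      obtain ⟨e1, e2⟩ := b4 d1 d2
      exact ⟨hDM, rfl, e1, e2⟩

theorem rightPt (hLA : RowLA) (hMS : RowMS) (hML : RowML) (hH : Hyp R c m η) {w : Fin 3 → ℂ}
    (hw : w ∈ StripE R c m η) (h0 : (w 0).re ≤ 0) (h1 : -(Cm R c m (uu w) / 2) < (w 0).re)
    (hl : ¬ (R - 2 * c) / 3 + 3 * m / 4 < lw R w) : RightPt D (D.vR w) (D.G0 w) := by
  obtain ⟨hu, -, hI⟩ := hw
  have hm := hH.1
  have hη := hH.2.2.2.1
  have hη2 := hH.2.2.2.2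
  have hG : D.G0 w = D.TopR (D.vR w) := by
    unfold Dat.G0
    rw [if_neg hl, if_neg (not_lt.2 h0)]
  have hl' : R - 2 * (uu w 0 + uu w 1) - (-(w 0).re) ≤ (R - 2 * c) / 3 + 3 * m / 4 := by
    rw [lw_eq, abs_of_nonpos h0] at hl
    exact not_lt.1 hl
  obtain ⟨him0, him1⟩ := vR_im_range D hH hu
  have hre : (D.vR w 0).re = -FL D.t R c m (-(w 0).re, uu w) := by
    rw [vR_re]
    exact FR_eq_FL D (w 0).re (uu w)
  rw [hG]
  unfold Dat.TopR
  by_cases hk : -(m / 20) < kah R c (D.vR w)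
  · rw [if_pos hk]
    obtain ⟨a1, a2, a3⟩ := cL_pt D hLA hH hu (p := -(w 0).re) (by linarith) hl'
      (v := mir (D.vR w)) (by rw [uu_mir, uu_vR]) (by rw [mir_re, hre, neg_neg])
      (by rw [kap_mir]; exact hk)
    refine ⟨?_, ?_, him0, him1, fun _ => ⟨a1, rfl⟩, fun h => ?_⟩
    · rw [cR_eq, lim_swp]; exact a2
    · rw [cR_eq, qim_swp]; linarith
    · exfalso
      rw [cR_eq, qim_swp] at h
      linarith
  · rw [if_neg hk]
    have hpos : 0 < (w 0).re + Cm R c m (uu w) / 2 := by linarith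
    have hDM : D.vR w ∈ H687.DM R c m := by
      refine ⟨by rw [uu_vR]; exact hu, ?_, by linarith⟩
      have h3 := corner_far hH hu (Q := FL D.t R c m (-(w 0).re, uu w)) (by
        refine FL_le D hH (q := (-(w 0).re, uu w)) hu ?_
        show -(w 0).re - Cm R c m (uu w) / 2 ≤ m / 40
        linarith)
      rw [kap_eq, uu_vR, hre]
      linarith
    obtain ⟨b1, b2, b3, b4⟩ := read_mid D hMS hH hDM (q := (w 0).re + Cm R c m (uu w) / 2)
      (θ := Int.fract (w 0).im) (by rw [vR_re, uu_vR]; rfl) (by rw [vR_im, uu_vR])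
    have hq := b3 hpos.le
    refine ⟨by linarith, by linarith, him0, him1, fun h => ?_, fun h => ?_⟩
    · obtain ⟨c1, c2⟩ := (hML R c m η D hH _ hDM).2.2.2 h
      exact ⟨c2, c1⟩
    · have hnI : ¬ IntA w := by
        intro hi
        have h5 := hI hi
        rw [abs_of_nonpos h0] at h5
        linarith
      obtain ⟨d1, d2⟩ := IntA_frac hnI
      obtain ⟨e1, e2⟩ := b4 d1 d2
      exact ⟨hDM, rfl, e1, e2⟩

theorem int_zero {a b : ℝ} {l : ℤ} (ha0 : 0 ≤ a) (ha1 : a < 1) (hb0 : 0 ≤ b) (hb1 : b < 1)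
    (h : b = a + l) : l = 0 := by
  have h1 : ((l : ℤ) : ℝ) < 1 := by linarith
  have h2 : (-1 : ℝ) < l := by linarith
  have h3 : l < 1 := by exact_mod_cast h1
  have h4 : -1 < l := by exact_mod_cast h2
  omega

theorem left_left (hLS : RowLS) (hMI : RowMI) (hH : Hyp R c m η) {v v' Z : Fin 3 → ℂ}
    (h : LeftPt D v Z) (h' : LeftPt D v' Z) : v = v' := by
  by_cases hq : qim Z < -(η / 2)
  · obtain ⟨a1, a2⟩ := h.chart hq
    obtain ⟨b1, b2⟩ := h'.chart hq
    obtain ⟨l, hl⟩ := (hLS R c m η D hH).2.2.2 v a1 v' b1 (a2.symm.trans b2)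
    have h3 : (v' 0).im = (v 0).im + l := by rw [hl, sft_im]
    have h4 := int_zero h.im0 h.im1 h'.im0 h'.im1 h3
    rw [hl, h4, sft_zero]
  · obtain ⟨a1, a2, a3, a4⟩ := h.mid (not_lt.1 hq)
    obtain ⟨b1, b2, b3, b4⟩ := h'.mid (not_lt.1 hq)
    exact hMI R c m η D hH v a1 v' b1 (a2.symm.trans b2) a3 a4 b3 b4

theorem right_right (hLS : RowLS) (hMI : RowMI) (hH : Hyp R c m η) {v v' Z : Fin 3 → ℂ}
    (h : RightPt D v Z) (h' : RightPt D v' Z) : v = v' := by
  by_cases hq : η / 2 < qim Z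
  · obtain ⟨a1, a2⟩ := h.chart hq
    obtain ⟨b1, b2⟩ := h'.chart hq
    have h2 : D.cL (mir v) = D.cL (mir v') := by
      refine swp_inj ?_
      rw [← cR_eq, ← cR_eq, ← a2, ← b2]
    obtain ⟨l, hl⟩ := (hLS R c m η D hH).2.2.2 _ a1 _ b1 h2
    have h5 : v' = sft (-l) v := by
      rw [← mir_mir v', hl, mir_sft, mir_mir]
    have h3 : (v' 0).im = (v 0).im + ((-l : ℤ) : ℝ) := by rw [h5, sft_im]
    have h4 := int_zero h.im0 h.im1 h'.im0 h'.im1 h3
    rw [h5, h4, sft_zero]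
  · obtain ⟨a1, a2, a3, a4⟩ := h.mid (not_lt.1 hq)
    obtain ⟨b1, b2, b3, b4⟩ := h'.mid (not_lt.1 hq)
    exact hMI R c m η D hH v a1 v' b1 (a2.symm.trans b2) a3 a4 b3 b4

theorem red_eq {w w' : Fin 3 → ℂ} (h : red w = red w') : ∃ l : ℤ, w' = sft l w := by
  refine ⟨⌊(w' 0).im⌋ - ⌊(w 0).im⌋, ?_⟩
  have h1 : w' = sft ⌊(w' 0).im⌋ (red w') := by
    unfold red
    rw [sft_add, add_neg_cancel, sft_zero]
  rw [← h] at h1
  unfold red at h1
  rw [sft_add, ← sub_eq_add_neg] at h1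
  exact h1

theorem vL_inj (hH : Hyp R c m η) {w w' : Fin 3 → ℂ} (hu : uu w ∈ Vm R c m)
    (h : D.vL w = D.vL w') : ∃ l : ℤ, w' = sft l w := by
  apply red_eq
  unfold Dat.vL at h
  have hΛ := Lam_pos hH hu
  have hd := D.ht.deriv_nonneg ((w 0).re - Cm R c m (uu w) / 2)
  refine clift_inj ?_ (fun h1 h2 => ?_) h
  · rw [qq_red, FL_Fp D.ht]
    show 1 + deriv D.t ((w 0).re - Cm R c m (uu w) / 2) * Lam c m (uu w) ≠ 0
    positivity
  · rw [uu_red, uu_red] at h1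
    rw [qq_red, qq_red] at h2
    rw [red_re, red_re]
    have h3 : ((w 0).re - Cm R c m (uu w) / 2) + D.t ((w 0).re - Cm R c m (uu w) / 2) *
        Lam c m (uu w) = ((w' 0).re - Cm R c m (uu w) / 2) +
          D.t ((w' 0).re - Cm R c m (uu w) / 2) * Lam c m (uu w) := by
      have h4 : FL D.t R c m (qq w) = ((w 0).re - Cm R c m (uu w) / 2) +
          D.t ((w 0).re - Cm R c m (uu w) / 2) * Lam c m (uu w) := rfl
      have h5 : FL D.t R c m (qq w') = ((w' 0).re - Cm R c m (uu w') / 2) +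
          D.t ((w' 0).re - Cm R c m (uu w') / 2) * Lam c m (uu w') := rfl
      rw [h4, h5, ← h1] at h2
      exact h2
    have h6 := f_inj D.ht hΛ.le h3
    linarith

theorem vR_inj (hH : Hyp R c m η) {w w' : Fin 3 → ℂ} (hu : uu w ∈ Vm R c m)
    (h : D.vR w = D.vR w') : ∃ l : ℤ, w' = sft l w := by
  apply red_eq
  unfold Dat.vR at h
  have hΛ := Lam_pos hH hu
  have hd := D.ht.deriv_nonneg ((w 0).re + Cm R c m (uu w) / 2)
  refine clift_inj ?_ (fun h1 h2 => ?_) h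
  · rw [qq_red, FR_Fp D.ht]
    show 1 + deriv D.t ((w 0).re + Cm R c m (uu w) / 2) * Lam c m (uu w) ≠ 0
    positivity
  · rw [uu_red, uu_red] at h1
    rw [qq_red, qq_red] at h2
    rw [red_re, red_re]
    have h3 : ((w 0).re + Cm R c m (uu w) / 2) + D.t ((w 0).re + Cm R c m (uu w) / 2) *
        Lam c m (uu w) = ((w' 0).re + Cm R c m (uu w) / 2) +
          D.t ((w' 0).re + Cm R c m (uu w) / 2) * Lam c m (uu w) := by
      have h4 : FR D.t R c m (qq w) = ((w 0).re + Cm R c m (uu w) / 2) +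
          D.t ((w 0).re + Cm R c m (uu w) / 2) * Lam c m (uu w) := rfl
      have h5 : FR D.t R c m (qq w') = ((w' 0).re + Cm R c m (uu w') / 2) +
          D.t ((w' 0).re + Cm R c m (uu w') / 2) * Lam c m (uu w') := rfl
      rw [h4, h5, ← h1] at h2
      exact h2
    have h6 := f_inj D.ht hΛ.le h3
    linarith

/-- injectivity in the fundamental domain -/
theorem inj_fund (hLS : RowLS) (hLA : RowLA) (hMS : RowMS) (hML : RowML) (hMI : RowMI)
    (hGC : RowGC) (hH : Hyp R c m η) {w w' : Fin 3 → ℂ}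
    (hw : w ∈ StripE R c m η) (h0 : -(Cm R c m (uu w) / 2) < (w 0).re)
    (h1 : (w 0).re ≤ Cm R c m (uu w) / 2)
    (hw' : w' ∈ StripE R c m η) (h0' : -(Cm R c m (uu w') / 2) < (w' 0).re)
    (h1' : (w' 0).re ≤ Cm R c m (uu w') / 2)
    (h : D.G0 w = D.G0 w') : ∃ l : ℤ, w' = sft l w := by
  have hm := hH.1
  have gate : ∀ w, w ∈ StripE R c m η → (R - 2 * c) / 3 + 3 * m / 4 < lw R w →
      (R - 2 * c) / 3 + 3 * m / 4 < lim R (D.G0 w) := by
    intro w hw hl
    rw [G0_eqC D hl]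
    exact ((hGC R c m η D hH).1 w hw.1 (by linarith)).2.2.2.2.1 hl
  by_cases hl : (R - 2 * c) / 3 + 3 * m / 4 < lw R w
  · have g1 := gate w hw hl
    by_cases hl' : (R - 2 * c) / 3 + 3 * m / 4 < lw R w'
    · refine (hGC R c m η D hH).2 w w' hw.1 hw'.1 ?_
      rw [← G0_eqC D hl, ← G0_eqC D hl', h]
    · exfalso
      rw [h] at g1
      rcases lt_or_ge 0 (w' 0).re with h2 | h2
      · have := (leftPt D hLA hMS hML hH hw' h2 h1' hl').l
        linarith
      · have := (rightPt D hLA hMS hML hH hw' h2 h0' hl').l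
        linarith
  · by_cases hl' : (R - 2 * c) / 3 + 3 * m / 4 < lw R w'
    · exfalso
      have g1 := gate w' hw' hl'
      rw [← h] at g1
      rcases lt_or_ge 0 (w 0).re with h2 | h2
      · have := (leftPt D hLA hMS hML hH hw h2 h1 hl).l
        linarith
      · have := (rightPt D hLA hMS hML hH hw h2 h0 hl).l
        linarith
    · rcases lt_or_ge 0 (w 0).re with h2 | h2
      · have a := leftPt D hLA hMS hML hH hw h2 h1 hl
        rcases lt_or_ge 0 (w' 0).re with h2' | h2'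
        · have b := leftPt D hLA hMS hML hH hw' h2' h1' hl'
          rw [← h] at b
          exact vL_inj D hH hw.1 (left_left D hLS hMI hH a b)
        · exfalso
          have b := rightPt D hLA hMS hML hH hw' h2' h0' hl'
          rw [← h] at b
          linarith [a.q, b.q]
      · have a := rightPt D hLA hMS hML hH hw h2 h0 hl
        rcases lt_or_ge 0 (w' 0).re with h2' | h2'
        · exfalso
          have b := leftPt D hLA hMS hML hH hw' h2' h1' hl'
          rw [← h] at b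
          linarith [a.q, b.q]
        · have b := rightPt D hLA hMS hML hH hw' h2' h0' hl'
          rw [← h] at b
          exact vR_inj D hH hw.1 (right_right D hLS hMI hH a b)

/-- reduction to the fundamental domain -/
theorem red_fund (hH : Hyp R c m η)
    (hseam : ∀ w, uu w ∈ Vm R c m → |(w 0).re - Cm R c m (uu w) / 2| < m / 40 → ¬ IntA w →
      D.G0 (Tk (Cm R c m) 1 w) = D.G0 w) {w : Fin 3 → ℂ} (hw : w ∈ StripE R c m η) :
    ∃ n : ℤ, Tk (Cm R c m) n w ∈ StripE R c m η ∧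
      -(Cm R c m (uu w) / 2) < (Tk (Cm R c m) n w 0).re ∧
      (Tk (Cm R c m) n w 0).re ≤ Cm R c m (uu w) / 2 ∧ D.G0 (Tk (Cm R c m) n w) = D.G0 w := by
  obtain ⟨hu, h1, hI⟩ := hw
  have hm := hH.1
  have hη := hH.2.2.2.1
  have hη2 := hH.2.2.2.2
  have hC := Cm_ge hH hu
  have h2 := abs_lt.1 h1
  rcases lt_or_ge (Cm R c m (uu w) / 2) (w 0).re with h3 | h3
  · have hnI : ¬ IntA w := by
      intro hi
      have h5 := hI hi
      rw [abs_of_pos (by linarith)] at h5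
      linarith
    refine ⟨1, ⟨by rw [uu_Tk]; exact hu, ?_, fun hi => absurd ((IntA_Tk 1 w).1 hi) hnI⟩,
      ?_, ?_, hseam w hu (by rw [abs_lt]; constructor <;> linarith) hnI⟩
    · rw [uu_Tk, Tk_re, abs_lt]
      push_cast
      constructor <;> linarith
    · rw [Tk_re]
      push_cast
      linarith
    · rw [Tk_re]
      push_cast
      linarith
  · rcases le_or_gt (w 0).re (-(Cm R c m (uu w) / 2)) with h4 | h4
    · have hnI : ¬ IntA w := by
        intro hi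
        have h5 := hI hi
        rw [abs_of_nonpos (by linarith)] at h5
        linarith
      have hnI' : ¬ IntA (Tk (Cm R c m) (-1) w) := fun hi => hnI ((IntA_Tk (-1) w).1 hi)
      have e1 : (Tk (Cm R c m) (-1) w 0).re = (w 0).re + Cm R c m (uu w) := by
        rw [Tk_re]; push_cast; ring
      refine ⟨-1, ⟨by rw [uu_Tk]; exact hu, ?_, fun hi => absurd hi hnI'⟩, ?_, ?_, ?_⟩
      · rw [uu_Tk, e1, abs_lt]
        constructor <;> linarith
      · rw [e1]; linarith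
      · rw [e1]; linarith
      · have h6 := hseam (Tk (Cm R c m) (-1) w) (by rw [uu_Tk]; exact hu)
          (by rw [uu_Tk, e1, abs_lt]; constructor <;> linarith) hnI'
        rw [Tk_add, add_neg_cancel, Tk_zero] at h6
        exact h6.symm
    · refine ⟨0, ?_, ?_, ?_, ?_⟩
      · rw [Tk_zero]; exact ⟨hu, h1, hI⟩
      · rw [Tk_zero]; exact h4
      · rw [Tk_zero]; exact h3
      · rw [Tk_zero]

/-- **The injectivity clause of `RowStrip`.** -/
theorem strip_inj (hLS : RowLS) (hLA : RowLA) (hMS : RowMS) (hML : RowML) (hMI : RowMI)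
    (hGC : RowGC) (hH : Hyp R c m η)
    (hseam : ∀ w, uu w ∈ Vm R c m → |(w 0).re - Cm R c m (uu w) / 2| < m / 40 → ¬ IntA w →
      D.G0 (Tk (Cm R c m) 1 w) = D.G0 w) :
    ∀ w ∈ StripE R c m η, ∀ w' ∈ StripE R c m η, D.G0 w = D.G0 w' →
      ∃ n l : ℤ, w' = sft l (Tk (Cm R c m) n w) := by
  intro w hw w' hw' h
  obtain ⟨n, a1, a2, a3, a4⟩ := red_fund D hH hseam hw
  obtain ⟨n', b1, b2, b3, b4⟩ := red_fund D hH hseam hw'
  obtain ⟨l, hl⟩ := inj_fund D hLS hLA hMS hML hMI hGC hH a1 (by rw [uu_Tk]; exact a2)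
    (by rw [uu_Tk]; exact a3) b1 (by rw [uu_Tk]; exact b2) (by rw [uu_Tk]; exact b3)
    (a4.trans (h.trans b4.symm))
  refine ⟨-n' + n, l, ?_⟩
  have h3 : w' = Tk (Cm R c m) (-n') (Tk (Cm R c m) n' w') := (Tk_neg _ _ w').symm
  rw [hl, Tk_sft, Tk_add] at h3
  exact h3

end points

end Vale.Agent.P209.H974.SI
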