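import Vale.Agent.P209.H578.Defs
import Mathlib.Topology.TietzeExtension

set_option linter.all false

/-!
Placing a ball under a state: proof of `PlaceLemma`.
-/

namespace Vale.Agent.P209.H974

open Complex Vale.Agent.P209 Vale.Agent.P209.H578 Vale.Agent.P209.Strong
open scoped ContDiff

/-- derivative of the actions -/
noncomputable def duu {d : ℕ} (w : Fin (d + 1) → ℂ) : (Fin (d + 1) → ℂ) →L[ℝ] (Fin d → ℝ) :=
  ContinuousLinearMap.pi fun a => (2 * Real.pi) •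
    ((w a.succ).re • (Complex.reCLM.comp (ContinuousLinearMap.proj a.succ)) +
      (w a.succ).im • (Complex.imCLM.comp (ContinuousLinearMap.proj a.succ)))

theorem duu_apply {d : ℕ} (w v : Fin (d + 1) → ℂ) (a : Fin d) :
    duu w v a = 2 * Real.pi * ((w a.succ).re * (v a.succ).re + (w a.succ).im * (v a.succ).im) := by
  unfold duu
  simp
  ring

theorem uu_hasFDerivAt {d : ℕ} (w : Fin (d + 1) → ℂ) : HasFDerivAt (uu (d := d)) (duu w) w := by
  unfold uu duu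
  rw [hasFDerivAt_pi']
  intro a
  have h1 : HasFDerivAt (fun P : Fin (d + 1) → ℂ => P a.succ)
      (ContinuousLinearMap.proj a.succ : (Fin (d + 1) → ℂ) →L[ℝ] ℂ) w :=
    (ContinuousLinearMap.proj a.succ : (Fin (d + 1) → ℂ) →L[ℝ] ℂ).hasFDerivAt
  have h2 := (normSq_hasFDerivAt (w a.succ)).comp w h1
  have h3 : HasFDerivAt (fun P : Fin (d + 1) → ℂ => Real.pi * normSq (P a.succ)) _ w :=
    h2.const_mul Real.pi
  have h4 : (fun P : Fin (d + 1) → ℂ => Real.pi * ‖P a.succ‖ ^ 2) =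
      fun P => Real.pi * normSq (P a.succ) := by
    funext P
    rw [Complex.normSq_eq_norm_sq]
  rw [h4]
  refine h3.congr_fderiv ?_
  ext u
  simp
  ring

theorem uu_contDiff {d : ℕ} : ContDiff ℝ ∞ (uu (d := d)) := by
  unfold uu
  rw [contDiff_pi]
  intro a
  have h4 : (fun P : Fin (d + 1) → ℂ => Real.pi * ‖P a.succ‖ ^ 2) =
      fun P => Real.pi * normSq (P a.succ) := by
    funext P
    rw [Complex.normSq_eq_norm_sq]
  rw [h4]
  exact contDiff_const.mul (normSq_contDiff.comp (contDiff_apply ℝ ℂ a.succ))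

/-- partial derivative of `G` -/
noncomputable def pd {d : ℕ} (G : (Fin d → ℝ) → ℝ) (a : Fin d) (u : Fin d → ℝ) : ℝ :=
  fderiv ℝ G u (Pi.single a 1)

/-- the placing map -/
noncomputable def plc {d : ℕ} (ζ : ℂ → ℂ) (G : (Fin d → ℝ) → ℝ) (w : Fin (d + 1) → ℂ) :
    Fin (d + 1) → ℂ :=
  Fin.cons (ζ (w 0) + ((G (uu w) : ℝ) : ℂ))
    (fun a : Fin d => exp (((-2 * Real.pi * ((ζ (w 0)).im * pd G a (uu w)) : ℝ) : ℂ) * I) * w a.succ)

theorem plc_zero {d : ℕ} (ζ : ℂ → ℂ) (G : (Fin d → ℝ) → ℝ) (w : Fin (d + 1) → ℂ) :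
    plc ζ G w 0 = ζ (w 0) + ((G (uu w) : ℝ) : ℂ) := rfl

theorem plc_succ {d : ℕ} (ζ : ℂ → ℂ) (G : (Fin d → ℝ) → ℝ) (w : Fin (d + 1) → ℂ) (a : Fin d) :
    plc ζ G w a.succ =
      exp (((-2 * Real.pi * ((ζ (w 0)).im * pd G a (uu w)) : ℝ) : ℂ) * I) * w a.succ := rfl

theorem uu_plc {d : ℕ} (ζ : ℂ → ℂ) (G : (Fin d → ℝ) → ℝ) (w : Fin (d + 1) → ℂ) :
    uu (plc ζ G w) = uu w := by
  funext a
  unfold uu
  rw [plc_succ, norm_mul, Complex.norm_exp_ofReal_mul_I, one_mul]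

theorem pd_contDiff {d : ℕ} {G : (Fin d → ℝ) → ℝ} (hG : ContDiff ℝ ∞ G) (a : Fin d) :
    ContDiff ℝ ∞ (pd G a) := by
  unfold pd
  exact (hG.fderiv_right (by simp)).clm_apply contDiff_const

theorem pd_hasFDerivAt {d : ℕ} {G : (Fin d → ℝ) → ℝ} (hG : ContDiff ℝ ∞ G) (a : Fin d)
    (u : Fin d → ℝ) : ∃ B : (Fin d → ℝ) →L[ℝ] ℝ, HasFDerivAt (pd G a) B u ∧
      ∀ v, B v = fderiv ℝ (fderiv ℝ G) u v (Pi.single a 1) := by
  have hs : ContDiff ℝ ∞ (fderiv ℝ G) := hG.fderiv_right (by simp)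
  have h3 : HasFDerivAt (fderiv ℝ G) (fderiv ℝ (fderiv ℝ G) u) u :=
    (hs.differentiable (by simp) _).hasFDerivAt
  have h4 := h3.clm_apply (hasFDerivAt_const (Pi.single a (1 : ℝ)) u)
  refine ⟨_, h4, fun v => ?_⟩
  simp

theorem lin_sum {d : ℕ} (T : (Fin d → ℝ) →L[ℝ] ℝ) (v : Fin d → ℝ) :
    ∑ a, v a * T (Pi.single a 1) = T v := by
  have h1 : v = ∑ a, v a • (Pi.single a (1 : ℝ) : Fin d → ℝ) := by
    ext k
    simp [Finset.sum_apply, Pi.single_apply]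
  conv_rhs => rw [h1]
  rw [map_sum]
  refine Finset.sum_congr rfl fun i _ => ?_
  rw [map_smul, smul_eq_mul]

theorem plc_fderiv {d : ℕ} {ζ : ℂ → ℂ} {G : (Fin d → ℝ) → ℝ} (hG : ContDiff ℝ ∞ G)
    {w : Fin (d + 1) → ℂ} (hζ : DifferentiableAt ℝ ζ (w 0)) :
    ∃ B : (Fin (d + 1) → ℂ) →L[ℝ] (Fin (d + 1) → ℂ), HasFDerivAt (plc ζ G) B w ∧
      (∀ v, B v 0 = fderiv ℝ ζ (w 0) (v 0) + ((fderiv ℝ G (uu w) (duu w v) : ℝ) : ℂ)) ∧
      ∀ v, ∀ a : Fin d, B v a.succ =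
        exp (((-2 * Real.pi * ((ζ (w 0)).im * pd G a (uu w)) : ℝ) : ℂ) * I) *
          (v a.succ + (((-2 * Real.pi * ((ζ (w 0)).im *
            fderiv ℝ (fderiv ℝ G) (uu w) (duu w v) (Pi.single a 1) +
              (fderiv ℝ ζ (w 0) (v 0)).im * pd G a (uu w))) : ℝ) : ℂ) * (I * w a.succ)) := by
  have hpr : ∀ k, HasFDerivAt (fun P : Fin (d + 1) → ℂ => P k)
      (ContinuousLinearMap.proj k : (Fin (d + 1) → ℂ) →L[ℝ] ℂ) w := fun k =>
    (ContinuousLinearMap.proj k : (Fin (d + 1) → ℂ) →L[ℝ] ℂ).hasFDerivAt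
  have hz : HasFDerivAt (fun P : Fin (d + 1) → ℂ => ζ (P 0)) _ w := hζ.hasFDerivAt.comp w (hpr 0)
  have hzi : HasFDerivAt (fun P : Fin (d + 1) → ℂ => (ζ (P 0)).im) _ w :=
    Complex.imCLM.hasFDerivAt.comp w hz
  have h0 : HasFDerivAt (fun P : Fin (d + 1) → ℂ => G (uu P)) _ w :=
    (hG.differentiable (by simp) _).hasFDerivAt.comp w (uu_hasFDerivAt w)
  have h0' : HasFDerivAt (fun P : Fin (d + 1) → ℂ => ((G (uu P) : ℝ) : ℂ)) _ w :=
    Complex.ofRealCLM.hasFDerivAt.comp w h0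
  have hslot : ∀ a : Fin d, ∃ B : (Fin (d + 1) → ℂ) →L[ℝ] ℂ,
      HasFDerivAt (fun P => plc ζ G P a.succ) B w ∧ ∀ v, B v =
        exp (((-2 * Real.pi * ((ζ (w 0)).im * pd G a (uu w)) : ℝ) : ℂ) * I) *
          (v a.succ + (((-2 * Real.pi * ((ζ (w 0)).im *
            fderiv ℝ (fderiv ℝ G) (uu w) (duu w v) (Pi.single a 1) +
              (fderiv ℝ ζ (w 0) (v 0)).im * pd G a (uu w))) : ℝ) : ℂ) * (I * w a.succ)) := by
    intro a
    obtain ⟨C, hC, hCv⟩ := pd_hasFDerivAt hG a (uu w)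
    have h1 : HasFDerivAt (fun P : Fin (d + 1) → ℂ => pd G a (uu P)) _ w :=
      hC.comp w (uu_hasFDerivAt w)
    have h2 := (hzi.mul h1).const_mul (-2 * Real.pi)
    have h3 : HasFDerivAt (fun P : Fin (d + 1) → ℂ =>
        (((-2 * Real.pi * ((ζ (P 0)).im * pd G a (uu P))) : ℝ) : ℂ)) _ w :=
      Complex.ofRealCLM.hasFDerivAt.comp w h2
    have h4 := (h3.mul_const I).cexp.mul (hpr a.succ)
    refine ⟨_, h4, fun v => ?_⟩
    rw [← hCv]
    simp
    ring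
  choose B hB hBv using hslot
  obtain ⟨B0, hB0, hB0v⟩ : ∃ B0 : (Fin (d + 1) → ℂ) →L[ℝ] ℂ,
      HasFDerivAt (fun P => plc ζ G P 0) B0 w ∧
      ∀ v, B0 v = fderiv ℝ ζ (w 0) (v 0) + ((fderiv ℝ G (uu w) (duu w v) : ℝ) : ℂ) :=
    ⟨_, hz.add h0', fun v => by simp⟩
  refine ⟨ContinuousLinearMap.pi (Fin.cons B0 B), ?_, fun v => ?_, fun v a => ?_⟩
  · rw [hasFDerivAt_pi]
    intro i
    refine Fin.cases ?_ (fun a => ?_) i
    · exact hB0
    · exact hB a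
  · exact hB0v v
  · exact hBv a v

/-- the placing map is symplectic -/
theorem plc_sympl {d : ℕ} {ζ : ℂ → ℂ} {G : (Fin d → ℝ) → ℝ} (hG : ContDiff ℝ ∞ G)
    {w : Fin (d + 1) → ℂ} (hζ : DifferentiableAt ℝ ζ (w 0))
    (hs : ∀ v v', om1 (fderiv ℝ ζ (w 0) v) (fderiv ℝ ζ (w 0) v') = om1 v v')
    (v v' : Fin (d + 1) → ℂ) :
    omega (fderiv ℝ (plc ζ G) w v) (fderiv ℝ (plc ζ G) w v') = omega v v' := by
  obtain ⟨B, hB, hB0, hBs⟩ := plc_fderiv hG hζ
  rw [hB.fderiv]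
  have hsum : ∀ x y : Fin (d + 1) → ℂ, omega x y = om1 (x 0) (y 0) +
      ∑ a : Fin d, om1 (x a.succ) (y a.succ) := by
    intro x y
    unfold omega om1
    rw [Fin.sum_univ_succ]
  rw [hsum, hsum, hB0, hB0, A3_slot2, hs]
  have h1 : ∀ a : Fin d, om1 (B v a.succ) (B v' a.succ) = om1 (v a.succ) (v' a.succ) -
      ((ζ (w 0)).im * fderiv ℝ (fderiv ℝ G) (uu w) (duu w v') (Pi.single a 1) +
        (fderiv ℝ ζ (w 0) (v' 0)).im * pd G a (uu w)) * duu w v a +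
      ((ζ (w 0)).im * fderiv ℝ (fderiv ℝ G) (uu w) (duu w v) (Pi.single a 1) +
        (fderiv ℝ ζ (w 0) (v 0)).im * pd G a (uu w)) * duu w v' a := by
    intro a
    rw [hBs, hBs, A3_slot3, duu_apply, duu_apply]
    ring
  rw [Finset.sum_congr rfl fun a _ => h1 a]
  have h2 : ∀ x : Fin d → ℝ, ∀ T : (Fin d → ℝ) →L[ℝ] ℝ,
      ∑ a, T (Pi.single a 1) * x a = T x := by
    intro x T
    rw [← lin_sum T x]
    exact Finset.sum_congr rfl fun a _ => mul_comm _ _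
  have h3 : ∀ x : Fin d → ℝ, ∀ y : Fin d → ℝ, ∀ t : ℝ,
      ∑ a, ((ζ (w 0)).im * fderiv ℝ (fderiv ℝ G) (uu w) y (Pi.single a 1) +
        t * pd G a (uu w)) * x a =
      (ζ (w 0)).im * fderiv ℝ (fderiv ℝ G) (uu w) y x + t * fderiv ℝ G (uu w) x := by
    intro x y t
    rw [← h2 x (fderiv ℝ (fderiv ℝ G) (uu w) y), ← h2 x (fderiv ℝ G (uu w)), Finset.mul_sum,
      Finset.mul_sum, ← Finset.sum_add_distrib]
    refine Finset.sum_congr rfl fun a _ => ?_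
    unfold pd
    ring
  rw [Finset.sum_add_distrib, Finset.sum_sub_distrib, h3, h3]
  have hsym : fderiv ℝ (fderiv ℝ G) (uu w) (duu w v') (duu w v) =
      fderiv ℝ (fderiv ℝ G) (uu w) (duu w v) (duu w v') := by
    have h4 : IsSymmSndFDerivAt ℝ G (uu w) := by
      refine (hG.contDiffAt (x := uu w)).isSymmSndFDerivAt ?_
      rw [minSmoothness_of_isRCLikeNormedField]
      exact WithTop.coe_le_coe.2 (le_top (a := (2 : ℕ∞)))
    exact (h4 (duu w v') (duu w v))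
  rw [hsym]
  ring

theorem plc_contDiffAt {d : ℕ} {ζ : ℂ → ℂ} {G : (Fin d → ℝ) → ℝ} (hG : ContDiff ℝ ∞ G)
    {w : Fin (d + 1) → ℂ} (hζ : ContDiffAt ℝ ∞ ζ (w 0)) : ContDiffAt ℝ ∞ (plc ζ G) w := by
  have hpr : ∀ k, ContDiffAt ℝ ∞ (fun P : Fin (d + 1) → ℂ => P k) w := fun k =>
    (contDiff_apply ℝ ℂ k).contDiffAt
  have hz : ContDiffAt ℝ ∞ (fun P : Fin (d + 1) → ℂ => ζ (P 0)) w := hζ.comp w (hpr 0)
  rw [contDiffAt_pi]
  intro i
  refine Fin.cases ?_ (fun a => ?_) i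
  · exact hz.add (Complex.ofRealCLM.contDiff.contDiffAt.comp w
      (hG.contDiffAt.comp w uu_contDiff.contDiffAt))
  · have h1 : ContDiffAt ℝ ∞ (fun P : Fin (d + 1) → ℂ =>
        -2 * Real.pi * ((ζ (P 0)).im * pd G a (uu P))) w :=
      contDiffAt_const.mul ((Complex.imCLM.contDiff.contDiffAt.comp w hz).mul
        ((pd_contDiff hG a).contDiffAt.comp w uu_contDiff.contDiffAt))
    have h2 : ContDiffAt ℝ ∞ (fun P : Fin (d + 1) → ℂ =>
        ((-2 * Real.pi * ((ζ (P 0)).im * pd G a (uu P)) : ℝ) : ℂ)) w :=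
      Complex.ofRealCLM.contDiff.contDiffAt.comp w h1
    exact (Complex.contDiff_exp.contDiffAt.comp w (h2.mul contDiffAt_const)).mul (hpr a.succ)

/-- the placing map is injective modulo integers in the angle -/
theorem plc_inj {d : ℕ} {ζ : ℂ → ℂ} {G : (Fin d → ℝ) → ℝ} {w w' : Fin (d + 1) → ℂ}
    (hζ : (ζ (w 0)).re = (ζ (w' 0)).re → (∃ m : ℤ, (ζ (w 0)).im - (ζ (w' 0)).im = m) → w 0 = w' 0)
    (h0 : (plc ζ G w 0).re = (plc ζ G w' 0).re)
    (h1 : ∃ m : ℤ, (plc ζ G w 0).im - (plc ζ G w' 0).im = m)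
    (h2 : ∀ a : Fin d, plc ζ G w a.succ = plc ζ G w' a.succ) : w = w' := by
  have hu : uu w = uu w' := by
    rw [← uu_plc ζ G w, ← uu_plc ζ G w']
    funext a
    unfold uu
    rw [h2 a]
  rw [plc_zero, plc_zero, hu, Complex.add_re, Complex.add_re] at h0
  rw [plc_zero, plc_zero, Complex.add_im, Complex.add_im, Complex.ofReal_im, Complex.ofReal_im,
    add_zero, add_zero] at h1
  have h3 : w 0 = w' 0 := hζ (add_right_cancel h0) h1
  funext i
  refine Fin.cases h3 (fun a => ?_) i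
  have h4 := h2 a
  rw [plc_succ, plc_succ, hu, h3] at h4
  exact mul_left_cancel₀ (Complex.exp_ne_zero _) h4

/-- a smooth function close to a function continuous on a compact set -/
theorem exists_smooth_near {d : ℕ} {K : Set (Fin d → ℝ)} (hK : IsClosed K) {g : (Fin d → ℝ) → ℝ}
    (hg : ContinuousOn g K) {η : ℝ} (hη : 0 < η) :
    ∃ G : (Fin d → ℝ) → ℝ, ContDiff ℝ ∞ G ∧ ∀ u ∈ K, |G u - g u| < η := by
  obtain ⟨g', hg'⟩ := ContinuousMap.exists_restrict_eq hK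
    (⟨K.domRestrict g, continuousOn_iff_continuous_domRestrict.1 hg⟩ : C(K, ℝ))
  obtain ⟨G, hG, hGa, _⟩ := (g'.continuous).exists_contDiff_approx (E := Fin d → ℝ) (F := ℝ)
    (⊤ : ℕ∞) (ε := fun _ => η) continuous_const (fun _ => hη)
  refine ⟨G, hG, fun u hu => ?_⟩
  have h1 := hGa u
  have h2 : g' u = g u := by
    have := congrArg (fun c : C(K, ℝ) => c ⟨u, hu⟩) hg'
    simpa using this
  rwa [h2, Real.dist_eq] at h1

/-- (PLACE) -/
theorem placeLemma : PlaceLemma := by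
  intro d Om f r r' hOm hf hr hrr hsub
  set η : ℝ := (r' - r) / 8 with hη
  have hη0 : 0 < η := by rw [hη]; linarith
  obtain ⟨ρ, ζ, hρ, hρ0, hζs, hζo, hζb, hζi⟩ := exists_plane_chart r η hr.le hη0
  -- the compact set of actions
  set K : Set (Fin d → ℝ) := {u | (∀ a, 0 ≤ u a) ∧ ∑ a, u a ≤ r} with hK
  have hKc : IsClosed K := by
    have h1 : IsClosed {u : Fin d → ℝ | ∀ a, 0 ≤ u a} := by
      have : {u : Fin d → ℝ | ∀ a, 0 ≤ u a} = ⋂ a, {u | 0 ≤ u a} := by ext; simp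
      rw [this]
      exact isClosed_iInter fun a => isClosed_le continuous_const (continuous_apply a)
    exact h1.inter (isClosed_le (continuous_finset_sum _ fun a _ => continuous_apply a)
      continuous_const)
  have hKOm : K ⊆ Om := fun u hu => hsub u hu.1 (hu.2.trans hrr.le)
  have hgc : ContinuousOn (fun u : Fin d → ℝ => f u - (r' - ∑ a, u a) + 4 * η) K := by
    refine ((hf.mono hKOm).sub ?_).add continuousOn_const
    exact continuousOn_const.sub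
      (continuous_finset_sum _ fun a _ => continuous_apply a).continuousOn
  obtain ⟨G, hG, hGn⟩ := exists_smooth_near hKc hgc hη0
  set U : Set (Fin (d + 1) → ℂ) := {w | ‖w 0‖ < ρ} with hU
  have hUo : IsOpen U := isOpen_lt (continuous_apply 0).norm continuous_const
  have hsplit : ∀ w : Fin (d + 1) → ℂ, Real.pi * ∑ j, ‖w j‖ ^ 2 =
      Real.pi * ‖w 0‖ ^ 2 + ∑ a, uu w a := by
    intro w
    rw [Fin.sum_univ_succ, mul_add, Finset.mul_sum]
    rfl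
  have huu0 : ∀ w : Fin (d + 1) → ℂ, ∀ a, 0 ≤ uu w a := fun w a => by
    unfold uu
    have := Real.pi_pos
    positivity
  have hBU : closedBall (d + 1) r ⊆ U := by
    intro w hw
    have h1 : Real.pi * ‖w 0‖ ^ 2 + ∑ a, uu w a ≤ r := by rw [← hsplit]; exact hw
    have h2 : 0 ≤ ∑ a, uu w a := Finset.sum_nonneg fun a _ => huu0 w a
    have h3 : Real.pi * ‖w 0‖ ^ 2 < Real.pi * ρ ^ 2 := by linarith
    have h4 : ‖w 0‖ ^ 2 < ρ ^ 2 := lt_of_mul_lt_mul_left h3 Real.pi_pos.le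
    exact lt_of_pow_lt_pow_left₀ 2 hρ0.le h4
  have hζa : ∀ w ∈ U, ContDiffAt ℝ ∞ ζ (w 0) := fun w hw =>
    hζs.contDiffAt ((isOpen_lt continuous_norm continuous_const).mem_nhds hw)
  have hcd : ContDiffOn ℝ ∞ (plc ζ G) U := fun w hw =>
    (plc_contDiffAt hG (hζa w hw)).contDiffWithinAt
  have hsy : ∀ w ∈ U, ∀ v v' : Fin (d + 1) → ℂ,
      omega (fderiv ℝ (plc ζ G) w v) (fderiv ℝ (plc ζ G) w v') = omega v v' := fun w hw v v' =>
    plc_sympl hG ((hζa w hw).differentiableAt (by simp)) (hζo (w 0) hw) v v'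
  have hinj : ∀ w ∈ U, ∀ w' ∈ U, (plc ζ G w 0).re = (plc ζ G w' 0).re →
      (∀ a : Fin d, plc ζ G w a.succ = plc ζ G w' a.succ) →
      (∃ m : ℤ, (plc ζ G w 0).im - (plc ζ G w' 0).im = m) → w = w' := by
    intro w hw w' hw' h0 h2 h1
    exact plc_inj (hζi (w 0) (w' 0) hw hw') h0 h1 h2
  refine ⟨plc ζ G, ⟨U, hUo, hBU, hcd, isOpenEmbedding_of_sympl hUo hcd ?_ hsy, hsy⟩, ?_, ?_⟩
  · intro w hw w' hw' h
    exact hinj w hw w' hw' (by rw [h]) (fun a => by rw [h]) ⟨0, by rw [h]; simp⟩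
  · intro w hw
    rw [uu_plc]
    have h1 : Real.pi * ‖w 0‖ ^ 2 + ∑ a, uu w a ≤ r := by rw [← hsplit]; exact hw
    have hpos : 0 ≤ Real.pi * ‖w 0‖ ^ 2 := by
      have := Real.pi_pos
      positivity
    have hwK : uu w ∈ K := ⟨huu0 w, by linarith⟩
    have h2 := abs_lt.1 (hGn _ hwK)
    have h3 := hζb (w 0) (hBU hw)
    have h4 : (plc ζ G w 0).re = (ζ (w 0)).re + G (uu w) := by
      rw [plc_zero, Complex.add_re, Complex.ofReal_re]
    have h5 : tent r' (uu w) = r' - ∑ a, uu w a := by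
      unfold tent
      exact max_eq_left (by linarith)
    refine ⟨hKOm hwK, ?_, ?_⟩
    · rw [h4, h5]
      linarith [h2.1, h3.1]
    · rw [h4]
      have h6 : r' - r = 8 * η := by rw [hη]; ring
      linarith [h2.2, h3.2]
  · intro w hw w' hw' h0 h2 h1
    exact hinj w (hBU hw) w' (hBU hw') h0 h2 h1

end Vale.Agent.P209.H974
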