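import Vale.Agent.P209.H974.Wrap

set_option linter.all false

/-!
# Wrapping a strip map, with margins

As in `Wrap.lean`, but the wall `p ∈ {σ, σ - C}` is only approached for `θ` at distance more than
`ε` from `ℤ`.
-/

namespace Vale.Agent.P209.H974

open Vale.Agent.P209 Vale.Agent.P209.Strong Vale.Agent.P209.H684 Vale.Agent.P209.H578
open scoped ContDiff

variable {d N : ℕ}

/-- `θ` is near `ℤ` -/
def NearA (ε : ℝ) (w : Fin (d + 1) → ℂ) : Prop :=
  Int.fract (w 0).im ≤ ε ∨ 1 - ε ≤ Int.fract (w 0).im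

theorem NearA_of_IntA {ε : ℝ} (hε : 0 ≤ ε) {w : Fin (d + 1) → ℂ} (h : IntA w) : NearA ε w := by
  left
  unfold IntA at h
  rw [h]
  exact hε

theorem not_IntA {ε : ℝ} (hε : 0 ≤ ε) {w : Fin (d + 1) → ℂ} (h : ¬ NearA ε w) : ¬ IntA w :=
  fun h1 => h (NearA_of_IntA hε h1)

theorem NearA_Tk {ε : ℝ} (C : (Fin d → ℝ) → ℝ) (m : ℤ) (w : Fin (d + 1) → ℂ) :
    NearA ε (Tk C m w) ↔ NearA ε w := by
  unfold NearA
  rw [Tk_im]

theorem NearA_sft {ε : ℝ} (l : ℤ) (w : Fin (d + 1) → ℂ) :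
    NearA ε (sft l w) ↔ NearA ε w := by
  unfold NearA
  rw [sft_im, Int.fract_add_intCast]

theorem NearA_mono {ε ε' : ℝ} (h : ε ≤ ε') {w : Fin (d + 1) → ℂ} (hw : NearA ε w) :
    NearA ε' w := by
  rcases hw with h1 | h1
  · left; linarith
  · right; linarith

theorem not_NearA_eventually {ε : ℝ} (hε : 0 ≤ ε) {w : Fin (d + 1) → ℂ} (hw : ¬ NearA ε w) :
    ∀ᶠ x in nhds w, ¬ NearA ε x := by
  have hI := not_IntA hε hw
  have hc : Continuous fun x : Fin (d + 1) → ℂ => (x 0).im :=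
    Complex.continuous_im.comp (continuous_apply 0)
  unfold NearA at hw
  push Not at hw
  obtain ⟨h1, h2⟩ := hw
  rw [Int.fract] at h1 h2
  have h1' : (⌊(w 0).im⌋ : ℝ) + ε < (w 0).im := by linarith
  have h2' : (w 0).im < ⌊(w 0).im⌋ + (1 - ε) := by linarith
  filter_upwards [floor_eventually hI, hc.continuousAt.eventually (lt_mem_nhds h1'),
    hc.continuousAt.eventually (gt_mem_nhds h2')] with x hx hx1 hx2
  unfold NearA
  push Not
  rw [Int.fract, hx]
  constructor <;> linarith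

/-- the strip with margins -/
def StripD (V : Set (Fin d → ℝ)) (C σ : (Fin d → ℝ) → ℝ) (η ε : ℝ) : Set (Fin (d + 1) → ℂ) :=
  {w | uu w ∈ V ∧ σ (uu w) - C (uu w) - η < (w 0).re ∧ (w 0).re < σ (uu w) + η ∧
    (NearA ε w → σ (uu w) - C (uu w) + ε < (w 0).re ∧ (w 0).re < σ (uu w) - ε)}

/-- the domain of the wrapped map, with margins -/
def DomD (V : Set (Fin d → ℝ)) (C σ : (Fin d → ℝ) → ℝ) (ε : ℝ) : Set (Fin (d + 1) → ℂ) :=
  {w | uu w ∈ V ∧
    (NearA ε w → σ (uu w) - C (uu w) + ε < (w 0).re ∧ (w 0).re < σ (uu w) - ε)}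

/-- The hypotheses on the strip map. -/
structure StripSpecD (V : Set (Fin d → ℝ)) (C σ : (Fin d → ℝ) → ℝ) (η ε : ℝ)
    (P : (Fin N → ℂ) → Prop) (G0 : (Fin (d + 1) → ℂ) → (Fin N → ℂ)) : Prop where
  smooth : ∀ w ∈ StripD V C σ η ε, ContDiffAt ℝ ∞ G0 w
  sympl : ∀ w ∈ StripD V C σ η ε, ∀ v v',
    omega (fderiv ℝ G0 w v) (fderiv ℝ G0 w v') = omega v v'
  prop : ∀ w ∈ StripD V C σ η ε, P (G0 w)
  seam : ∀ w, uu w ∈ V → |(w 0).re - σ (uu w)| < η → ¬ NearA ε w → G0 (Tk C 1 w) = G0 w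
  inj : ∀ w ∈ StripD V C σ η ε, ∀ w' ∈ StripD V C σ η ε, G0 w = G0 w' →
    ∃ m l : ℤ, w' = sft l (Tk C m w)

/-- The properties of a map at the points of a set `K`. -/
structure MapOn (K : Set (Fin (d + 1) → ℂ)) (C : (Fin d → ℝ) → ℝ)
    (P : (Fin N → ℂ) → Prop) (G : (Fin (d + 1) → ℂ) → (Fin N → ℂ)) : Prop where
  smooth : ∀ w ∈ K, ContDiffAt ℝ ∞ G w
  sympl : ∀ w ∈ K, ∀ v v', omega (fderiv ℝ G w v) (fderiv ℝ G w v') = omega v v'
  prop : ∀ w ∈ K, P (G w)
  inj : ∀ w ∈ K, ∀ w' ∈ K, G w = G w' → ∃ m l : ℤ, w' = sft l (Tk C m w)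

theorem MapOn.mono {K K' : Set (Fin (d + 1) → ℂ)} {C : (Fin d → ℝ) → ℝ}
    {P : (Fin N → ℂ) → Prop} {G : (Fin (d + 1) → ℂ) → (Fin N → ℂ)} (h : MapOn K C P G)
    (hK : K' ⊆ K) : MapOn K' C P G :=
  ⟨fun w hw => h.smooth w (hK hw), fun w hw => h.sympl w (hK hw), fun w hw => h.prop w (hK hw),
    fun w hw w' hw' => h.inj w (hK hw) w' (hK hw')⟩

section Wrap

variable {V : Set (Fin d → ℝ)} {C σ : (Fin d → ℝ) → ℝ} {η ε : ℝ} {P : (Fin N → ℂ) → Prop}
  {G0 : (Fin (d + 1) → ℂ) → (Fin N → ℂ)}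

theorem idxD_mem (hC : ∀ u ∈ V, 0 < C u) (hη : 0 < η) (hε : 0 ≤ ε) {w : Fin (d + 1) → ℂ}
    (hw : w ∈ DomD V C σ ε) : Tk C (idx C σ w) w ∈ StripD V C σ η ε := by
  obtain ⟨h1, h2⟩ := idx_spec (σ := σ) (hC _ hw.1)
  refine ⟨by rw [uu_Tk]; exact hw.1, ?_, ?_, fun hI => ?_⟩
  · rw [uu_Tk, Tk_re]; linarith
  · rw [uu_Tk, Tk_re]; linarith
  · rw [NearA_Tk] at hI
    obtain ⟨h3, h4⟩ := hw.2 hI
    have h5 : idx C σ w = 0 := idx_unique (hC _ hw.1) (by push_cast; linarith)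
      (by push_cast; linarith)
    rw [h5, uu_Tk, Tk_re]
    push_cast
    constructor <;> linarith

theorem WrD_eq (hS : StripSpecD V C σ η ε P G0) (hC : ∀ u ∈ V, 0 < C u ∧ η < C u) (hη : 0 < η)
    {w : Fin (d + 1) → ℂ} (hI : ¬ NearA ε w) {m : ℤ} (hm : Tk C m w ∈ StripD V C σ η ε) :
    Wr C σ G0 w = G0 (Tk C m w) := by
  have hu : uu w ∈ V := by
    have := hm.1
    rwa [uu_Tk] at this
  obtain ⟨hC0, hCη⟩ := hC _ hu
  obtain ⟨h1, h2⟩ := idx_spec (σ := σ) hC0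
  have h3 := hm.2.1
  have h4 := hm.2.2.1
  rw [uu_Tk, Tk_re] at h3 h4
  set i := idx C σ w with hi
  have h5 : ((i - m : ℤ) : ℝ) * C (uu w) < 2 * C (uu w) := by
    push_cast
    linarith
  have h6 : ((m - i : ℤ) : ℝ) * C (uu w) < 2 * C (uu w) := by
    push_cast
    linarith
  have h7 : ((i - m : ℤ) : ℝ) < 2 := lt_of_mul_lt_mul_right h5 hC0.le
  have h8 : ((m - i : ℤ) : ℝ) < 2 := lt_of_mul_lt_mul_right h6 hC0.le
  have h9 : i - m < 2 := by exact_mod_cast h7
  have h10 : m - i < 2 := by exact_mod_cast h8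
  have hcases : i = m ∨ i = m + 1 ∨ m = i + 1 := by omega
  unfold Wr
  rw [← hi]
  rcases hcases with h | h | h
  · rw [h]
  · rw [h] at h1 h2
    push_cast at h1 h2
    have h11 := hS.seam (Tk C m w) hm.1 (by
      rw [uu_Tk, Tk_re, abs_lt]
      constructor <;> linarith) (by rw [NearA_Tk]; exact hI)
    rw [h, ← h11, Tk_add, add_comm]
  · rw [h] at h3 h4
    push_cast at h3 h4
    have h11 := hS.seam (Tk C i w) (by rw [uu_Tk]; exact hu) (by
      rw [uu_Tk, Tk_re, abs_lt]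
      constructor <;> linarith) (by rw [NearA_Tk]; exact hI)
    rw [h, ← h11, Tk_add, add_comm]

theorem StripD_isOpen_near (hV : IsOpen V) (hσ : ContinuousOn σ V) (hC : ContinuousOn C V)
    (hε : 0 ≤ ε) {w : Fin (d + 1) → ℂ} (hw : uu w ∈ V) {m : ℤ} (hI : ¬ NearA ε w)
    (hm : Tk C m w ∈ StripD V C σ η ε) :
    ∀ᶠ x in nhds w, ¬ NearA ε x ∧ Tk C m x ∈ StripD V C σ η ε := by
  have hre : Continuous fun x : Fin (d + 1) → ℂ => (x 0).re :=
    Complex.continuous_re.comp (continuous_apply 0)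
  have hσc : ContinuousAt (fun x => σ (uu x)) w :=
    (hσ.continuousAt (hV.mem_nhds hw)).comp uu_continuous.continuousAt
  have hCc : ContinuousAt (fun x => C (uu x)) w :=
    (hC.continuousAt (hV.mem_nhds hw)).comp uu_continuous.continuousAt
  have h3 := hm.2.1
  have h4 := hm.2.2.1
  rw [uu_Tk, Tk_re] at h3 h4
  filter_upwards [not_NearA_eventually hε hI,
    uu_continuous.continuousAt.eventually (hV.mem_nhds hw),
    ((hσc.sub hCc).sub continuousAt_const).eventually_lt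
      (hre.continuousAt.sub (continuousAt_const.mul hCc)) h3,
    (hre.continuousAt.sub (continuousAt_const.mul hCc)).eventually_lt
      (hσc.add continuousAt_const) h4] with x hx1 hx2 hx3 hx4
  refine ⟨hx1, by rw [uu_Tk]; exact hx2, ?_, ?_, fun h => absurd ((NearA_Tk C m x).1 h) hx1⟩
  · rw [uu_Tk, Tk_re]; exact hx3
  · rw [uu_Tk, Tk_re]; exact hx4

/-- the local forms of the wrapped map -/
theorem WrD_local (hS : StripSpecD V C σ η ε P G0) (hC : ∀ u ∈ V, 0 < C u ∧ η < C u)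
    (hη : 0 < η) (hε : 0 ≤ ε) (hV : IsOpen V) (hσ : ContinuousOn σ V) (hCd : ContDiff ℝ ∞ C)
    {w : Fin (d + 1) → ℂ} (hw : w ∈ DomD V C σ ε) :
    (¬ NearA ε w ∧ ∃ m, Tk C m w ∈ StripD V C σ η ε ∧
      Wr C σ G0 =ᶠ[nhds w] fun x => G0 (Tk C m x)) ∨
    (w ∈ StripD V C σ η ε ∧ Wr C σ G0 =ᶠ[nhds w] G0) := by
  by_cases hI : NearA ε w
  · right
    obtain ⟨h3, h4⟩ := hw.2 hI
    refine ⟨⟨hw.1, by linarith, by linarith, fun _ => ⟨h3, h4⟩⟩, ?_⟩
    have hre : Continuous fun x : Fin (d + 1) → ℂ => (x 0).re :=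
      Complex.continuous_re.comp (continuous_apply 0)
    have hσc : ContinuousAt (fun x => σ (uu x)) w :=
      (hσ.continuousAt (hV.mem_nhds hw.1)).comp uu_continuous.continuousAt
    have hCc : ContinuousAt (fun x => C (uu x)) w :=
      hCd.continuous.continuousAt.comp uu_continuous.continuousAt
    filter_upwards [uu_continuous.continuousAt.eventually (hV.mem_nhds hw.1),
      ((hσc.sub hCc).add continuousAt_const).eventually_lt hre.continuousAt h3,
      hre.continuousAt.eventually_lt (hσc.sub continuousAt_const) h4] with x hx1 hx2 hx3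
    have hx2' : σ (uu x) - C (uu x) + ε < (x 0).re := hx2
    have hx3' : (x 0).re < σ (uu x) - ε := hx3
    have h5 : idx C σ x = 0 := idx_unique (hC _ hx1).1 (by push_cast; linarith)
      (by push_cast; linarith)
    unfold Wr
    rw [h5, Tk_zero]
  · left
    refine ⟨hI, idx C σ w, idxD_mem (fun u hu => (hC u hu).1) hη hε hw, ?_⟩
    filter_upwards [StripD_isOpen_near hV hσ hCd.continuous.continuousOn hε hw.1 hI
      (idxD_mem (fun u hu => (hC u hu).1) hη hε hw)] with x hx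
    exact WrD_eq hS hC hη hx.1 hx.2

/-- From the strip to the wrapped map, with margins. -/
theorem wrapSpecD (hS : StripSpecD V C σ η ε P G0) (hC : ∀ u ∈ V, 0 < C u ∧ η < C u)
    (hη : 0 < η) (hε : 0 ≤ ε) (hV : IsOpen V) (hσ : ContinuousOn σ V) (hCd : ContDiff ℝ ∞ C) :
    MapOn (DomD V C σ ε) C P (Wr C σ G0) := by
  refine ⟨?_, ?_, ?_, ?_⟩
  · intro w hw
    rcases WrD_local hS hC hη hε hV hσ hCd hw with ⟨hI, m, hm, he⟩ | ⟨hm, he⟩
    · refine ContDiffAt.congr_of_eventuallyEq ?_ he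
      exact (hS.smooth _ hm).comp w (Tk_contDiffAt hCd m (not_IntA hε hI))
    · exact (hS.smooth _ hm).congr_of_eventuallyEq he
  · intro w hw
    rcases WrD_local hS hC hη hε hV hσ hCd hw with ⟨hI, m, hm, he⟩ | ⟨hm, he⟩
    · have h1 : SympAt G0 (Tk C m w) :=
        ⟨(hS.smooth _ hm).differentiableAt (by simp), hS.sympl _ hm⟩
      exact ((h1.comp (Tk_sympAt hCd m (not_IntA hε hI))).congr he).om
    · have h1 : SympAt G0 w := ⟨(hS.smooth _ hm).differentiableAt (by simp), hS.sympl _ hm⟩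
      exact (h1.congr he).om
  · intro w hw
    exact hS.prop _ (idxD_mem (fun u hu => (hC u hu).1) hη hε hw)
  · intro w hw w' hw' h
    have h1 := idxD_mem (fun u hu => (hC u hu).1) hη hε hw
    have h2 := idxD_mem (fun u hu => (hC u hu).1) hη hε hw'
    obtain ⟨m, l, hml⟩ := hS.inj _ h1 _ h2 h
    refine ⟨-idx C σ w' + m + idx C σ w, l, ?_⟩
    have h3 : w' = Tk C (-idx C σ w') (Tk C (idx C σ w') w') := (Tk_neg C _ w').symm
    rw [hml, Tk_sft, Tk_add, Tk_add] at h3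
    exact h3

end Wrap

/-! ### compact sets have margins -/

section Margin

variable {V : Set (Fin d → ℝ)} {C σ : (Fin d → ℝ) → ℝ}

theorem DomD_mono {ε ε' : ℝ} (h : ε ≤ ε') : DomD V C σ ε' ⊆ DomD V C σ ε := by
  rintro w ⟨h1, h2⟩
  refine ⟨h1, fun h3 => ?_⟩
  obtain ⟨h4, h5⟩ := h2 (NearA_mono h h3)
  constructor <;> linarith

theorem DomD_isOpen (hV : IsOpen V) (hσ : ContinuousOn σ V) (hC : ContinuousOn C V) {ε : ℝ}
    (hε : 0 ≤ ε) : IsOpen (DomD V C σ ε) := by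
  rw [isOpen_iff_mem_nhds]
  intro w hw
  have hre : Continuous fun x : Fin (d + 1) → ℂ => (x 0).re :=
    Complex.continuous_re.comp (continuous_apply 0)
  have hσc : ContinuousAt (fun x => σ (uu x)) w :=
    (hσ.continuousAt (hV.mem_nhds hw.1)).comp uu_continuous.continuousAt
  have hCc : ContinuousAt (fun x => C (uu x)) w :=
    (hC.continuousAt (hV.mem_nhds hw.1)).comp uu_continuous.continuousAt
  by_cases hI : NearA ε w
  · obtain ⟨h3, h4⟩ := hw.2 hI
    filter_upwards [uu_continuous.continuousAt.eventually (hV.mem_nhds hw.1),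
      ((hσc.sub hCc).add continuousAt_const).eventually_lt hre.continuousAt h3,
      hre.continuousAt.eventually_lt (hσc.sub continuousAt_const) h4] with x hx1 hx2 hx3
    exact ⟨hx1, fun _ => ⟨hx2, hx3⟩⟩
  · filter_upwards [uu_continuous.continuousAt.eventually (hV.mem_nhds hw.1),
      not_NearA_eventually hε hI] with x hx1 hx2
    exact ⟨hx1, fun h => absurd h hx2⟩

theorem exists_margin (hV : IsOpen V) (hσ : ContinuousOn σ V) (hC : ContinuousOn C V)
    {K : Set (Fin (d + 1) → ℂ)} (hK : IsCompact K) (hKD : K ⊆ DomW V C σ) :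
    ∃ ε : ℝ, 0 < ε ∧ ε < 1 / 2 ∧ K ⊆ DomD V C σ ε := by
  have hcov : K ⊆ ⋃ n : ℕ, DomD V C σ (1 / ((n : ℝ) + 3)) := by
    intro w hw
    obtain ⟨h1, h2⟩ := hKD hw
    rw [Set.mem_iUnion]
    by_cases hI : IntA w
    · obtain ⟨h3, h4⟩ := h2 hI
      obtain ⟨n, hn⟩ := exists_nat_one_div_lt (lt_min (sub_pos.2 h3) (sub_pos.2 h4))
      refine ⟨n, h1, fun _ => ?_⟩
      have h5 : 1 / ((n : ℝ) + 3) ≤ 1 / ((n : ℝ) + 1) := by
        apply one_div_le_one_div_of_le <;> [positivity; linarith]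
      have h6 := hn.trans_le (min_le_left _ _)
      have h7 := hn.trans_le (min_le_right _ _)
      constructor <;> linarith
    · have hf0 : 0 < Int.fract (w 0).im := lt_of_le_of_ne (Int.fract_nonneg _) (Ne.symm hI)
      have hf1 : 0 < 1 - Int.fract (w 0).im := sub_pos.2 (Int.fract_lt_one _)
      obtain ⟨n, hn⟩ := exists_nat_one_div_lt (lt_min hf0 hf1)
      refine ⟨n, h1, fun h => ?_⟩
      exfalso
      have h5 : 1 / ((n : ℝ) + 3) ≤ 1 / ((n : ℝ) + 1) := by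
        apply one_div_le_one_div_of_le <;> [positivity; linarith]
      have h6 := hn.trans_le (min_le_left _ _)
      have h7 := hn.trans_le (min_le_right _ _)
      rcases h with h | h <;> linarith
  have hdir : Directed (· ⊆ ·) fun n : ℕ => DomD V C σ (1 / ((n : ℝ) + 3)) := by
    intro a b
    refine ⟨max a b, DomD_mono ?_, DomD_mono ?_⟩
    · apply one_div_le_one_div_of_le
      · positivity
      · have : (a : ℝ) ≤ ((max a b : ℕ) : ℝ) := by exact_mod_cast le_max_left a b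
        linarith
    · apply one_div_le_one_div_of_le
      · positivity
      · have : (b : ℝ) ≤ ((max a b : ℕ) : ℝ) := by exact_mod_cast le_max_right a b
        linarith
  obtain ⟨n, hn⟩ := hK.elim_directed_cover _
    (fun n => DomD_isOpen hV hσ hC (by positivity)) hcov hdir
  refine ⟨1 / ((n : ℝ) + 3), by positivity, ?_, hn⟩
  apply one_div_lt_one_div_of_lt (by norm_num)
  have : (0 : ℝ) ≤ n := Nat.cast_nonneg n
  linarith

end Margin

end Vale.Agent.P209.H974
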