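import Vale.Agent.P209.H974.Glue

set_option linter.all false

/-!
# Wrapping a strip map

`StripSpec`: a map on the strip `σ - C - η < p < σ + η` (for `θ ∈ ℤ` only on `σ - C < p < σ`), with
the gluing `G0 ∘ T = G0` near the seam `p = σ` for `θ ∉ ℤ`. Conclusion: a map on
`{w | θ ∈ ℤ → σ - C < p < σ}`, injective modulo the deck maps.
-/

namespace Vale.Agent.P209.H974

open Vale.Agent.P209 Vale.Agent.P209.Strong Vale.Agent.P209.H684 Vale.Agent.P209.H578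
open scoped ContDiff

variable {d N : ℕ}

/-- the deck map with the window `θ ∉ ℤ`: `p ↦ p - m C`, `z_a ↦ exp (2 π i m {θ} ∂_a C) z_a` -/
noncomputable def Tk (C : (Fin d → ℝ) → ℝ) (m : ℤ) (w : Fin (d + 1) → ℂ) : Fin (d + 1) → ℂ :=
  Fin.cons (w 0 - ((m * C (uu w) : ℝ) : ℂ))
    (fun a : Fin d => ee (m * Int.fract (w 0).im * pd C a (uu w)) * w a.succ)

/-- `θ ∈ ℤ` -/
def IntA (w : Fin (d + 1) → ℂ) : Prop := Int.fract (w 0).im = 0

theorem Tk_zero_slot (C : (Fin d → ℝ) → ℝ) (m : ℤ) (w : Fin (d + 1) → ℂ) :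
    Tk C m w 0 = w 0 - ((m * C (uu w) : ℝ) : ℂ) := rfl

theorem Tk_succ (C : (Fin d → ℝ) → ℝ) (m : ℤ) (w : Fin (d + 1) → ℂ) (a : Fin d) :
    Tk C m w a.succ = ee (m * Int.fract (w 0).im * pd C a (uu w)) * w a.succ := rfl

theorem Tk_re (C : (Fin d → ℝ) → ℝ) (m : ℤ) (w : Fin (d + 1) → ℂ) :
    (Tk C m w 0).re = (w 0).re - m * C (uu w) := by
  rw [Tk_zero_slot, Complex.sub_re, Complex.ofReal_re]

theorem Tk_im (C : (Fin d → ℝ) → ℝ) (m : ℤ) (w : Fin (d + 1) → ℂ) :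
    (Tk C m w 0).im = (w 0).im := by
  rw [Tk_zero_slot, Complex.sub_im, Complex.ofReal_im, sub_zero]

theorem uu_Tk (C : (Fin d → ℝ) → ℝ) (m : ℤ) (w : Fin (d + 1) → ℂ) : uu (Tk C m w) = uu w := by
  funext a
  show Real.pi * ‖Tk C m w a.succ‖ ^ 2 = Real.pi * ‖w a.succ‖ ^ 2
  rw [Tk_succ, norm_mul, ee_norm, one_mul]

theorem Tk_add (C : (Fin d → ℝ) → ℝ) (m m' : ℤ) (w : Fin (d + 1) → ℂ) :
    Tk C m (Tk C m' w) = Tk C (m + m') w := by
  funext b
  refine Fin.cases ?_ (fun a => ?_) b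
  · rw [Tk_zero_slot, uu_Tk, Tk_zero_slot, Tk_zero_slot]
    push_cast
    ring
  · rw [Tk_succ, Tk_succ, Tk_succ, uu_Tk, Tk_im, ← mul_assoc, ← ee_add]
    congr 2
    push_cast
    ring

theorem Tk_zero (C : (Fin d → ℝ) → ℝ) (w : Fin (d + 1) → ℂ) : Tk C 0 w = w := by
  funext b
  refine Fin.cases ?_ (fun a => ?_) b
  · rw [Tk_zero_slot]
    simp
  · rw [Tk_succ]
    simp [ee_zero]

theorem Tk_neg (C : (Fin d → ℝ) → ℝ) (m : ℤ) (w : Fin (d + 1) → ℂ) : Tk C (-m) (Tk C m w) = w := by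
  rw [Tk_add, neg_add_cancel, Tk_zero]

/-- the shift `θ ↦ θ + l` -/
noncomputable def sft (l : ℤ) (w : Fin (d + 1) → ℂ) : Fin (d + 1) → ℂ :=
  w + Pi.single 0 ((l : ℂ) * Complex.I)

theorem sft_zero_slot (l : ℤ) (w : Fin (d + 1) → ℂ) : sft l w 0 = w 0 + (l : ℂ) * Complex.I := by
  unfold sft
  rw [Pi.add_apply, Pi.single_eq_same]

theorem sft_succ (l : ℤ) (w : Fin (d + 1) → ℂ) (a : Fin d) : sft l w a.succ = w a.succ := by
  unfold sft
  rw [Pi.add_apply, Pi.single_eq_of_ne (Fin.succ_ne_zero a), add_zero]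

theorem sft_re (l : ℤ) (w : Fin (d + 1) → ℂ) : (sft l w 0).re = (w 0).re := by
  rw [sft_zero_slot]; simp

theorem sft_im (l : ℤ) (w : Fin (d + 1) → ℂ) : (sft l w 0).im = (w 0).im + l := by
  rw [sft_zero_slot]; simp

theorem uu_sft (l : ℤ) (w : Fin (d + 1) → ℂ) : uu (sft l w) = uu w := by
  funext a
  show Real.pi * ‖sft l w a.succ‖ ^ 2 = Real.pi * ‖w a.succ‖ ^ 2
  rw [sft_succ]

theorem sft_add (l l' : ℤ) (w : Fin (d + 1) → ℂ) : sft l (sft l' w) = sft (l + l') w := by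
  funext b
  refine Fin.cases ?_ (fun a => ?_) b
  · rw [sft_zero_slot, sft_zero_slot, sft_zero_slot]
    push_cast
    ring
  · rw [sft_succ, sft_succ, sft_succ]

theorem sft_zero (w : Fin (d + 1) → ℂ) : sft 0 w = w := by
  unfold sft
  simp

theorem Tk_sft (C : (Fin d → ℝ) → ℝ) (m l : ℤ) (w : Fin (d + 1) → ℂ) :
    Tk C m (sft l w) = sft l (Tk C m w) := by
  funext b
  refine Fin.cases ?_ (fun a => ?_) b
  · rw [Tk_zero_slot, uu_sft, sft_zero_slot, sft_zero_slot, Tk_zero_slot]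
    ring
  · rw [Tk_succ, uu_sft, sft_succ, sft_im, Int.fract_add_intCast, sft_succ, Tk_succ]

theorem sft_hasFDerivAt (l : ℤ) (w : Fin (d + 1) → ℂ) :
    HasFDerivAt (sft (d := d) l) (ContinuousLinearMap.id ℝ (Fin (d + 1) → ℂ)) w := by
  unfold sft
  exact (hasFDerivAt_id w).add_const _

theorem sft_sympAt (l : ℤ) (w : Fin (d + 1) → ℂ) : SympAt (sft (d := d) l) w := by
  refine ⟨(sft_hasFDerivAt l w).differentiableAt, fun v v' => ?_⟩
  rw [(sft_hasFDerivAt l w).fderiv]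
  rfl

theorem sft_contDiff (l : ℤ) : ContDiff ℝ ∞ (sft (d := d) l) := by
  unfold sft
  exact contDiff_id.add contDiff_const

/-- the local form of the deck map -/
theorem Tk_eq_plc {C : (Fin d → ℝ) → ℝ} (hC : ContDiff ℝ ∞ C) (m : ℤ) {w : Fin (d + 1) → ℂ} :
    Tk C m w = sft ⌊(w 0).im⌋ (plc (fun z => z) (fun u => -((m : ℝ) * C u))
      (sft (-⌊(w 0).im⌋) w)) := by
  have hpd : ∀ a u, pd (fun u => -((m : ℝ) * C u)) a u = -(m * pd C a u) := by
    intro a u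
    unfold pd
    have h1 : HasFDerivAt C (fderiv ℝ C u) u := (hC.differentiable (by simp) u).hasFDerivAt
    have h2 : HasFDerivAt (fun u => -((m : ℝ) * C u)) (-((m : ℝ) • fderiv ℝ C u)) u :=
      (h1.const_mul (m : ℝ)).neg
    rw [h2.fderiv]
    simp
  funext b
  refine Fin.cases ?_ (fun a => ?_) b
  · rw [Tk_zero_slot, sft_zero_slot, plc_zero, uu_sft, sft_zero_slot]
    push_cast
    ring
  · rw [Tk_succ, sft_succ, plc_succ, uu_sft, sft_succ, hpd, sft_im]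
    unfold ee
    congr 3
    rw [Int.fract]
    push_cast
    ring

theorem floor_eventually {w : Fin (d + 1) → ℂ} (hw : ¬ IntA w) :
    ∀ᶠ x in nhds w, ⌊(x 0).im⌋ = ⌊(w 0).im⌋ := by
  have hc : Continuous fun x : Fin (d + 1) → ℂ => (x 0).im :=
    Complex.continuous_im.comp (continuous_apply 0)
  have h1 : (⌊(w 0).im⌋ : ℝ) < (w 0).im := by
    refine lt_of_le_of_ne (Int.floor_le _) fun h => hw ?_
    show (w 0).im - ⌊(w 0).im⌋ = 0
    linarith
  have h2 : (w 0).im < ⌊(w 0).im⌋ + 1 := Int.lt_floor_add_one _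
  filter_upwards [hc.continuousAt.eventually (lt_mem_nhds h1),
    hc.continuousAt.eventually (gt_mem_nhds h2)] with x hx1 hx2
  exact Int.floor_eq_iff.2 ⟨hx1.le, hx2⟩

theorem Tk_eventually {C : (Fin d → ℝ) → ℝ} (hC : ContDiff ℝ ∞ C) (m : ℤ)
    {w : Fin (d + 1) → ℂ} (hw : ¬ IntA w) :
    Tk C m =ᶠ[nhds w] fun x => sft ⌊(w 0).im⌋ (plc (fun z => z) (fun u => -((m : ℝ) * C u))
      (sft (-⌊(w 0).im⌋) x)) := by
  filter_upwards [floor_eventually hw] with x hx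
  rw [Tk_eq_plc hC m, hx]

theorem Tk_contDiffAt {C : (Fin d → ℝ) → ℝ} (hC : ContDiff ℝ ∞ C) (m : ℤ)
    {w : Fin (d + 1) → ℂ} (hw : ¬ IntA w) : ContDiffAt ℝ ∞ (Tk C m) w := by
  refine ContDiffAt.congr_of_eventuallyEq ?_ (Tk_eventually hC m hw)
  have h1 : ContDiff ℝ ∞ (plc (fun z => z) (fun u : Fin d → ℝ => -((m : ℝ) * C u))) := by
    rw [contDiff_iff_contDiffAt]
    exact fun w => plc_contDiffAt (contDiff_const.mul hC).neg contDiffAt_id
  exact ((sft_contDiff _).comp (h1.comp (sft_contDiff _))).contDiffAt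

theorem Tk_sympAt {C : (Fin d → ℝ) → ℝ} (hC : ContDiff ℝ ∞ C) (m : ℤ)
    {w : Fin (d + 1) → ℂ} (hw : ¬ IntA w) : SympAt (Tk C m) w := by
  refine SympAt.congr ?_ (Tk_eventually hC m hw)
  have hG : ContDiff ℝ ∞ (fun u : Fin d → ℝ => -((m : ℝ) * C u)) := (contDiff_const.mul hC).neg
  have h1 : SympAt (plc (fun z => z) (fun u : Fin d → ℝ => -((m : ℝ) * C u)))
      (sft (-⌊(w 0).im⌋) w) := by
    refine ⟨(plc_contDiffAt hG contDiffAt_id).differentiableAt (by simp), fun v v' => ?_⟩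
    refine plc_sympl hG differentiableAt_fun_id (fun v v' => ?_) v v'
    simp
  exact (sft_sympAt _ _).comp (h1.comp (sft_sympAt _ w))

/-- the strip -/
def Strip (V : Set (Fin d → ℝ)) (C σ : (Fin d → ℝ) → ℝ) (η : ℝ) : Set (Fin (d + 1) → ℂ) :=
  {w | uu w ∈ V ∧ σ (uu w) - C (uu w) - η < (w 0).re ∧ (w 0).re < σ (uu w) + η ∧
    (IntA w → σ (uu w) - C (uu w) < (w 0).re ∧ (w 0).re < σ (uu w))}

/-- the domain of the wrapped map -/
def DomW (V : Set (Fin d → ℝ)) (C σ : (Fin d → ℝ) → ℝ) : Set (Fin (d + 1) → ℂ) :=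
  {w | uu w ∈ V ∧ (IntA w → σ (uu w) - C (uu w) < (w 0).re ∧ (w 0).re < σ (uu w))}

/-- The hypotheses on the strip map. -/
structure StripSpec (V : Set (Fin d → ℝ)) (C σ : (Fin d → ℝ) → ℝ) (η : ℝ)
    (P : (Fin N → ℂ) → Prop) (G0 : (Fin (d + 1) → ℂ) → (Fin N → ℂ)) : Prop where
  smooth : ∀ w ∈ Strip V C σ η, ContDiffAt ℝ ∞ G0 w
  sympl : ∀ w ∈ Strip V C σ η, ∀ v v', omega (fderiv ℝ G0 w v) (fderiv ℝ G0 w v') = omega v v'
  prop : ∀ w ∈ Strip V C σ η, P (G0 w)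
  seam : ∀ w, uu w ∈ V → |(w 0).re - σ (uu w)| < η → ¬ IntA w → G0 (Tk C 1 w) = G0 w
  inj : ∀ w ∈ Strip V C σ η, ∀ w' ∈ Strip V C σ η, G0 w = G0 w' →
    ∃ m l : ℤ, w' = sft l (Tk C m w)

/-- The conclusion. -/
structure WrapSpec (V : Set (Fin d → ℝ)) (C σ : (Fin d → ℝ) → ℝ)
    (P : (Fin N → ℂ) → Prop) (G : (Fin (d + 1) → ℂ) → (Fin N → ℂ)) : Prop where
  smooth : ∀ w ∈ DomW V C σ, ContDiffAt ℝ ∞ G w
  sympl : ∀ w ∈ DomW V C σ, ∀ v v', omega (fderiv ℝ G w v) (fderiv ℝ G w v') = omega v v'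
  prop : ∀ w ∈ DomW V C σ, P (G w)
  inj : ∀ w ∈ DomW V C σ, ∀ w' ∈ DomW V C σ, G w = G w' → ∃ m l : ℤ, w' = sft l (Tk C m w)

section Wrap

variable {V : Set (Fin d → ℝ)} {C σ : (Fin d → ℝ) → ℝ} {η : ℝ} {P : (Fin N → ℂ) → Prop}
  {G0 : (Fin (d + 1) → ℂ) → (Fin N → ℂ)}

/-- the index of the fundamental strip -/
noncomputable def idx (C σ : (Fin d → ℝ) → ℝ) (w : Fin (d + 1) → ℂ) : ℤ :=
  ⌊((w 0).re - σ (uu w)) / C (uu w)⌋ + 1

theorem idx_spec {w : Fin (d + 1) → ℂ} (hC : 0 < C (uu w)) :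
    σ (uu w) - C (uu w) ≤ (w 0).re - idx C σ w * C (uu w) ∧
      (w 0).re - idx C σ w * C (uu w) < σ (uu w) := by
  unfold idx
  have h1 := Int.floor_le (((w 0).re - σ (uu w)) / C (uu w))
  have h2 := Int.lt_floor_add_one (((w 0).re - σ (uu w)) / C (uu w))
  rw [le_div_iff₀ hC] at h1
  rw [div_lt_iff₀ hC] at h2
  push_cast
  constructor <;> nlinarith

theorem idx_unique {w : Fin (d + 1) → ℂ} (hC : 0 < C (uu w)) {m : ℤ}
    (h1 : σ (uu w) - C (uu w) ≤ (w 0).re - m * C (uu w))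
    (h2 : (w 0).re - m * C (uu w) < σ (uu w)) : idx C σ w = m := by
  obtain ⟨h3, h4⟩ := idx_spec (σ := σ) hC
  have h5 : ((m - idx C σ w : ℤ) : ℝ) * C (uu w) < 1 * C (uu w) := by
    push_cast
    linarith
  have h6 : ((idx C σ w - m : ℤ) : ℝ) * C (uu w) < 1 * C (uu w) := by
    push_cast
    linarith
  have h7 : ((m - idx C σ w : ℤ) : ℝ) < 1 := lt_of_mul_lt_mul_right h5 hC.le
  have h8 : ((idx C σ w - m : ℤ) : ℝ) < 1 := lt_of_mul_lt_mul_right h6 hC.le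
  have h9 : m - idx C σ w < 1 := by exact_mod_cast h7
  have h10 : idx C σ w - m < 1 := by exact_mod_cast h8
  omega

/-- the wrapped map -/
noncomputable def Wr (C σ : (Fin d → ℝ) → ℝ) (G0 : (Fin (d + 1) → ℂ) → (Fin N → ℂ))
    (w : Fin (d + 1) → ℂ) : Fin N → ℂ := G0 (Tk C (idx C σ w) w)

theorem IntA_Tk (m : ℤ) (w : Fin (d + 1) → ℂ) : IntA (Tk C m w) ↔ IntA w := by
  unfold IntA
  rw [Tk_im]

theorem idx_mem (hC : ∀ u ∈ V, 0 < C u) (hη : 0 < η) {w : Fin (d + 1) → ℂ}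
    (hw : w ∈ DomW V C σ) : Tk C (idx C σ w) w ∈ Strip V C σ η := by
  obtain ⟨h1, h2⟩ := idx_spec (σ := σ) (hC _ hw.1)
  refine ⟨by rw [uu_Tk]; exact hw.1, ?_, ?_, fun hI => ?_⟩
  · rw [uu_Tk, Tk_re]; linarith
  · rw [uu_Tk, Tk_re]; linarith
  · rw [IntA_Tk] at hI
    obtain ⟨h3, h4⟩ := hw.2 hI
    have h5 : idx C σ w = 0 := idx_unique (hC _ hw.1) (by push_cast; linarith)
      (by push_cast; linarith)
    rw [h5, uu_Tk, Tk_re]
    push_cast
    constructor <;> linarith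

theorem Wr_eq (hS : StripSpec V C σ η P G0) (hC : ∀ u ∈ V, 0 < C u ∧ η < C u) (hη : 0 < η)
    {w : Fin (d + 1) → ℂ} (hI : ¬ IntA w) {m : ℤ} (hm : Tk C m w ∈ Strip V C σ η) :
    Wr C σ G0 w = G0 (Tk C m w) := by
  have hu : uu w ∈ V := by
    have := hm.1
    rwa [uu_Tk] at this
  obtain ⟨hC0, hCη⟩ := hC _ hu
  obtain ⟨h1, h2⟩ := idx_spec (σ := σ) hC0
  have h3 := hm.2.1
  have h4 := hm.2.2.1
  rw [uu_Tk, Tk_re] at h3 h4
  set i := idx C σ w with hi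
  have h5 : ((i - m : ℤ) : ℝ) * C (uu w) < 2 * C (uu w) := by
    push_cast
    linarith
  have h6 : ((m - i : ℤ) : ℝ) * C (uu w) < 2 * C (uu w) := by
    push_cast
    linarith
  have h7 : ((i - m : ℤ) : ℝ) < 2 := lt_of_mul_lt_mul_right h5 hC0.le
  have h8 : ((m - i : ℤ) : ℝ) < 2 := lt_of_mul_lt_mul_right h6 hC0.le
  have h9 : i - m < 2 := by exact_mod_cast h7
  have h10 : m - i < 2 := by exact_mod_cast h8
  have hcases : i = m ∨ i = m + 1 ∨ m = i + 1 := by omega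
  unfold Wr
  rw [← hi]
  rcases hcases with h | h | h
  · rw [h]
  · rw [h] at h1 h2
    push_cast at h1 h2
    have h11 := hS.seam (Tk C m w) hm.1 (by
      rw [uu_Tk, Tk_re, abs_lt]
      constructor <;> linarith) (by rw [IntA_Tk]; exact hI)
    rw [h, ← h11, Tk_add, add_comm]
  · rw [h] at h3 h4
    push_cast at h3 h4
    have h11 := hS.seam (Tk C i w) (by rw [uu_Tk]; exact hu) (by
      rw [uu_Tk, Tk_re, abs_lt]
      constructor <;> linarith) (by rw [IntA_Tk]; exact hI)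
    rw [h, ← h11, Tk_add, add_comm]

theorem uu_continuous : Continuous (uu (d := d)) := uu_contDiff.continuous

theorem Strip_isOpen_near (hV : IsOpen V) (hσ : ContinuousOn σ V) (hC : ContinuousOn C V)
    {w : Fin (d + 1) → ℂ} (hw : uu w ∈ V) {m : ℤ} (hCd : ContDiff ℝ ∞ C) (hI : ¬ IntA w)
    (hm : Tk C m w ∈ Strip V C σ η) : ∀ᶠ x in nhds w, ¬ IntA x ∧ Tk C m x ∈ Strip V C σ η := by
  have hre : Continuous fun x : Fin (d + 1) → ℂ => (x 0).re :=
    Complex.continuous_re.comp (continuous_apply 0)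
  have hσc : ContinuousAt (fun x => σ (uu x)) w :=
    (hσ.continuousAt (hV.mem_nhds hw)).comp uu_continuous.continuousAt
  have hCc : ContinuousAt (fun x => C (uu x)) w :=
    (hC.continuousAt (hV.mem_nhds hw)).comp uu_continuous.continuousAt
  have hI2 : ∀ᶠ x in nhds w, ¬ IntA x := by
    have hc : Continuous fun x : Fin (d + 1) → ℂ => (x 0).im :=
      Complex.continuous_im.comp (continuous_apply 0)
    have h1 : (⌊(w 0).im⌋ : ℝ) < (w 0).im := by
      refine lt_of_le_of_ne (Int.floor_le _) fun h => hI ?_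
      show (w 0).im - ⌊(w 0).im⌋ = 0
      linarith
    filter_upwards [floor_eventually hI, hc.continuousAt.eventually (lt_mem_nhds h1)] with x hx hx2
    intro h
    unfold IntA at h
    rw [Int.fract, hx] at h
    linarith
  have h3 := hm.2.1
  have h4 := hm.2.2.1
  rw [uu_Tk, Tk_re] at h3 h4
  filter_upwards [hI2, uu_continuous.continuousAt.eventually (hV.mem_nhds hw),
    ((hσc.sub hCc).sub continuousAt_const).eventually_lt
      (hre.continuousAt.sub (continuousAt_const.mul hCc)) h3,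
    (hre.continuousAt.sub (continuousAt_const.mul hCc)).eventually_lt
      (hσc.add continuousAt_const) h4] with x hx1 hx2 hx3 hx4
  refine ⟨hx1, by rw [uu_Tk]; exact hx2, ?_, ?_, fun h => absurd ((IntA_Tk m x).1 h) hx1⟩
  · rw [uu_Tk, Tk_re]; exact hx3
  · rw [uu_Tk, Tk_re]; exact hx4

/-- the local forms of the wrapped map -/
theorem Wr_local (hS : StripSpec V C σ η P G0) (hC : ∀ u ∈ V, 0 < C u ∧ η < C u) (hη : 0 < η)
    (hV : IsOpen V) (hσ : ContinuousOn σ V) (hCd : ContDiff ℝ ∞ C)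
    {w : Fin (d + 1) → ℂ} (hw : w ∈ DomW V C σ) :
    (¬ IntA w ∧ ∃ m, Tk C m w ∈ Strip V C σ η ∧
      Wr C σ G0 =ᶠ[nhds w] fun x => G0 (Tk C m x)) ∨
    (w ∈ Strip V C σ η ∧ Wr C σ G0 =ᶠ[nhds w] G0) := by
  by_cases hI : IntA w
  · right
    obtain ⟨h3, h4⟩ := hw.2 hI
    refine ⟨⟨hw.1, by linarith, by linarith, fun _ => ⟨h3, h4⟩⟩, ?_⟩
    have hre : Continuous fun x : Fin (d + 1) → ℂ => (x 0).re :=
      Complex.continuous_re.comp (continuous_apply 0)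
    have hσc : ContinuousAt (fun x => σ (uu x)) w :=
      (hσ.continuousAt (hV.mem_nhds hw.1)).comp uu_continuous.continuousAt
    have hCc : ContinuousAt (fun x => C (uu x)) w :=
      hCd.continuous.continuousAt.comp uu_continuous.continuousAt
    filter_upwards [uu_continuous.continuousAt.eventually (hV.mem_nhds hw.1),
      (hσc.sub hCc).eventually_lt hre.continuousAt h3,
      hre.continuousAt.eventually_lt hσc h4] with x hx1 hx2 hx3
    have hx2' : σ (uu x) - C (uu x) < (x 0).re := hx2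
    have h5 : idx C σ x = 0 := idx_unique (hC _ hx1).1 (by push_cast; linarith)
      (by push_cast; linarith)
    unfold Wr
    rw [h5, Tk_zero]
  · left
    refine ⟨hI, idx C σ w, idx_mem (fun u hu => (hC u hu).1) hη hw, ?_⟩
    filter_upwards [Strip_isOpen_near hV hσ hCd.continuous.continuousOn hw.1 hCd hI
      (idx_mem (fun u hu => (hC u hu).1) hη hw)] with x hx
    exact Wr_eq hS hC hη hx.1 hx.2

/-- From the strip to the wrapped map. -/
theorem wrapSpec (hS : StripSpec V C σ η P G0) (hC : ∀ u ∈ V, 0 < C u ∧ η < C u) (hη : 0 < η)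
    (hV : IsOpen V) (hσ : ContinuousOn σ V) (hCd : ContDiff ℝ ∞ C) :
    WrapSpec V C σ P (Wr C σ G0) := by
  refine ⟨?_, ?_, ?_, ?_⟩
  · intro w hw
    rcases Wr_local hS hC hη hV hσ hCd hw with ⟨hI, m, hm, he⟩ | ⟨hm, he⟩
    · refine ContDiffAt.congr_of_eventuallyEq ?_ he
      exact (hS.smooth _ hm).comp w (Tk_contDiffAt hCd m hI)
    · exact (hS.smooth _ hm).congr_of_eventuallyEq he
  · intro w hw
    rcases Wr_local hS hC hη hV hσ hCd hw with ⟨hI, m, hm, he⟩ | ⟨hm, he⟩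
    · have h1 : SympAt G0 (Tk C m w) :=
        ⟨(hS.smooth _ hm).differentiableAt (by simp), hS.sympl _ hm⟩
      exact ((h1.comp (Tk_sympAt hCd m hI)).congr he).om
    · have h1 : SympAt G0 w := ⟨(hS.smooth _ hm).differentiableAt (by simp), hS.sympl _ hm⟩
      exact (h1.congr he).om
  · intro w hw
    exact hS.prop _ (idx_mem (fun u hu => (hC u hu).1) hη hw)
  · intro w hw w' hw' h
    have h1 := idx_mem (fun u hu => (hC u hu).1) hη hw
    have h2 := idx_mem (fun u hu => (hC u hu).1) hη hw'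
    obtain ⟨m, l, hml⟩ := hS.inj _ h1 _ h2 h
    refine ⟨-idx C σ w' + m + idx C σ w, l, ?_⟩
    have h3 : w' = Tk C (-idx C σ w') (Tk C (idx C σ w') w') := (Tk_neg C _ w').symm
    rw [hml, Tk_sft, Tk_add, Tk_add] at h3
    exact h3

end Wrap

end Vale.Agent.P209.H974
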