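import Vale.Agent.P209.H974.WrapD

set_option linter.all false

/-!
# Assembly: from the half map and the gate chart to the strip map
-/

namespace Vale.Agent.P209.H974

open Vale.Agent.P209 Vale.Agent.P209.Strong Vale.Agent.P209.H684 Vale.Agent.P209.H578
open scoped ContDiff

/-- the mirror of the model -/
noncomputable def iot {d : ℕ} (w : Fin (d + 1) → ℂ) : Fin (d + 1) → ℂ :=
  Fin.cons (-w 0) (fun a : Fin d => w a.succ)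

/-- the mirror of the target `(Z_0, Z_1, Z_3)` -/
def M13 (z : Fin 3 → ℂ) : Fin 3 → ℂ := fun i => z (Equiv.swap 1 2 i)

/-- the deck map with the real angle -/
noncomputable def TR {d : ℕ} (C : (Fin d → ℝ) → ℝ) (w : Fin (d + 1) → ℂ) : Fin (d + 1) → ℂ :=
  Fin.cons (w 0 - ((C (uu w) : ℝ) : ℂ)) (fun a : Fin d => ee ((w 0).im * pd C a (uu w)) * w a.succ)

/-- `x_1 - x_3` -/
noncomputable def yy3 (z : Fin 3 → ℂ) : ℝ := Real.pi * ‖z 1‖ ^ 2 - Real.pi * ‖z 2‖ ^ 2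

/-- `x_2 - x_0` -/
noncomputable def ll3 (R : ℝ) (z : Fin 3 → ℂ) : ℝ :=
  R - 2 * (Real.pi * ‖z 0‖ ^ 2) - Real.pi * ‖z 1‖ ^ 2 - Real.pi * ‖z 2‖ ^ 2

/-- the target -/
def Tgt (R c : ℝ) (z : Fin 3 → ℂ) : Prop := z ∈ openBall 3 R ∧ Real.pi * ‖z 0‖ ^ 2 < c

/-- both angles in `[0, 1)` or both in `(-1, 0]` -/
def Win (t t' : ℝ) : Prop := (0 ≤ t ∧ t < 1 ∧ 0 ≤ t' ∧ t' < 1) ∨ (-1 < t ∧ t ≤ 0 ∧ -1 < t' ∧ t' ≤ 0)

/-- The half map (in the lifted frame). -/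
structure HalfSpec (V : Set (Fin 2 → ℝ)) (C : (Fin 2 → ℝ) → ℝ) (η δ ε l0 R c : ℝ)
    (F : (Fin 3 → ℂ) → (Fin 3 → ℂ)) : Prop where
  smooth : ∀ w, uu w ∈ V → -(C (uu w) / 2) - η < (w 0).re → (w 0).re < -δ → ContDiffAt ℝ ∞ F w
  sympl : ∀ w, uu w ∈ V → -(C (uu w) / 2) - η < (w 0).re → (w 0).re < -δ →
    ∀ v v', omega (fderiv ℝ F w v) (fderiv ℝ F w v') = omega v v'
  prop : ∀ w, uu w ∈ V → -(C (uu w) / 2) - η < (w 0).re → (w 0).re < -δ → Tgt R c (F w)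
  per : ∀ w, uu w ∈ V → -(C (uu w) / 2) + ε < (w 0).re → (w 0).re < -δ → ∀ l : ℤ,
    F (sft l w) = F w
  seam : ∀ w, uu w ∈ V → |(w 0).re - C (uu w) / 2| < η → F (TR C w) = M13 (F (iot w))
  neg : ∀ w, uu w ∈ V → -(C (uu w) / 2) < (w 0).re → (w 0).re < -δ → yy3 (F w) < 0
  zero : ∀ w, uu w ∈ V → (w 0).re = -(C (uu w) / 2) → yy3 (F w) = 0
  far : ∀ w, uu w ∈ V → -(C (uu w) / 2) ≤ (w 0).re → (w 0).re < -δ → l0 ≤ ll3 R (F w) →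
    yy3 (F w) = (w 0).re
  inj : ∀ w w', uu w ∈ V → uu w' ∈ V →
    -(C (uu w) / 2) ≤ (w 0).re → (w 0).re < -δ → (NearA ε w → -(C (uu w) / 2) + ε < (w 0).re) →
    -(C (uu w') / 2) ≤ (w' 0).re → (w' 0).re < -δ →
    (NearA ε w' → -(C (uu w') / 2) + ε < (w' 0).re) →
    Win (w 0).im (w' 0).im → F w = F w' → w = w'

/-- The gate chart. -/
structure GateSpec1 (V : Set (Fin 2 → ℝ)) (δ l0 R c : ℝ)
    (F K : (Fin 3 → ℂ) → (Fin 3 → ℂ)) : Prop where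
  smooth : ∀ w, uu w ∈ V → |(w 0).re| < 3 * δ → ContDiffAt ℝ ∞ K w
  sympl : ∀ w, uu w ∈ V → |(w 0).re| < 3 * δ →
    ∀ v v', omega (fderiv ℝ K w v) (fderiv ℝ K w v') = omega v v'
  prop : ∀ w, uu w ∈ V → |(w 0).re| < 3 * δ → Tgt R c (K w)
  per : ∀ w, uu w ∈ V → |(w 0).re| < 3 * δ → ∀ l : ℤ, K (sft l w) = K w
  yy : ∀ w, uu w ∈ V → |(w 0).re| < 3 * δ → yy3 (K w) = (w 0).re
  ll : ∀ w, uu w ∈ V → |(w 0).re| < 3 * δ → l0 ≤ ll3 R (K w)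
  inj : ∀ w w', uu w ∈ V → uu w' ∈ V → |(w 0).re| < 3 * δ → |(w' 0).re| < 3 * δ → K w = K w' →
    ∃ l : ℤ, w' = sft l w
  left : ∀ w, uu w ∈ V → -(3 * δ) < (w 0).re → (w 0).re < -δ → K w = F w
  right : ∀ w, uu w ∈ V → δ < (w 0).re → (w 0).re < 3 * δ → K w = M13 (F (iot w))

end Vale.Agent.P209.H974
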