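import Vale.Agent.P209.H974.Loc
import Vale.Agent.P209.H974.Place

set_option linter.all false

/-!
# `GamSpec` from `LocSpec`
-/

namespace Vale.Agent.P209.H974

open Vale.Agent.P209 Vale.Agent.P209.Strong Vale.Agent.P209.H684 Vale.Agent.P209.H578
open scoped ContDiff

/-! ### Symplectic maps at a point -/

/-- symplectic at a point -/
structure SympAt {n N : ℕ} (f : (Fin n → ℂ) → (Fin N → ℂ)) (w : Fin n → ℂ) : Prop where
  diff : DifferentiableAt ℝ f w
  om : ∀ v v', omega (fderiv ℝ f w v) (fderiv ℝ f w v') = omega v v'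

theorem SympAt.comp {n N M : ℕ} {g : (Fin N → ℂ) → (Fin M → ℂ)}
    {f : (Fin n → ℂ) → (Fin N → ℂ)} {w : Fin n → ℂ} (hg : SympAt g (f w)) (hf : SympAt f w) :
    SympAt (fun x => g (f x)) w := by
  have h' : fderiv ℝ (fun x => g (f x)) w = (fderiv ℝ g (f w)).comp (fderiv ℝ f w) :=
    fderiv_comp w hg.diff hf.diff
  refine ⟨hg.diff.comp w hf.diff, fun v v' => ?_⟩
  rw [h']
  simp only [ContinuousLinearMap.comp_apply]
  rw [hg.om, hf.om]

theorem SympAt.congr {n N : ℕ} {f g : (Fin n → ℂ) → (Fin N → ℂ)} {w : Fin n → ℂ}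
    (hg : SympAt g w) (h : f =ᶠ[nhds w] g) : SympAt f w := by
  refine ⟨hg.diff.congr_of_eventuallyEq h, fun v v' => ?_⟩
  rw [h.fderiv_eq]
  exact hg.om v v'

theorem perm_hasFDerivAt {n : ℕ} (σ : Equiv.Perm (Fin n)) (w : Fin n → ℂ) :
    HasFDerivAt (fun (w : Fin n → ℂ) b => w (σ b))
      (ContinuousLinearMap.pi fun b => (ContinuousLinearMap.proj (σ b) : (Fin n → ℂ) →L[ℝ] ℂ)) w := by
  rw [hasFDerivAt_pi']
  intro b
  exact (ContinuousLinearMap.proj (σ b) : (Fin n → ℂ) →L[ℝ] ℂ).hasFDerivAt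

theorem sympAt_perm {n : ℕ} (σ : Equiv.Perm (Fin n)) (w : Fin n → ℂ) :
    SympAt (fun (w : Fin n → ℂ) b => w (σ b)) w := by
  have h := perm_hasFDerivAt σ w
  refine ⟨h.differentiableAt, fun v v' => ?_⟩
  rw [h.fderiv]
  unfold omega
  exact Equiv.sum_comp σ (fun j => ((v j).re * (v' j).im - (v j).im * (v' j).re))

/-- a common phase does not change the form on the sphere -/
theorem sympAt_phase {n N : ℕ} {F : (Fin n → ℂ) → (Fin N → ℂ)} {ψ : (Fin n → ℂ) → ℝ}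
    {w : Fin n → ℂ} {R : ℝ} (hF : SympAt F w) (hψ : DifferentiableAt ℝ ψ w)
    (hR : ∀ᶠ x in nhds w, Real.pi * ∑ j, ‖F x j‖ ^ 2 = R) :
    SympAt (fun x j => ee (ψ x) * F x j) w := by
  have hFj : ∀ j, HasFDerivAt (fun x => F x j)
      ((ContinuousLinearMap.proj j : (Fin N → ℂ) →L[ℝ] ℂ).comp (fderiv ℝ F w)) w := fun j =>
    (ContinuousLinearMap.proj j : (Fin N → ℂ) →L[ℝ] ℂ).hasFDerivAt.comp w hF.diff.hasFDerivAt
  have hd : DifferentiableAt ℝ (fun x j => ee (ψ x) * F x j) w := by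
    rw [differentiableAt_pi]
    intro j
    obtain ⟨B, hB, _⟩ := phase_hasFDerivAt hψ.hasFDerivAt (hFj j)
    exact hB.differentiableAt
  refine ⟨hd, fun v v' => ?_⟩
  have hcomp : ∀ v j, fderiv ℝ (fun x j => ee (ψ x) * F x j) w v j =
      fderiv ℝ (fun x => ee (ψ x) * F x j) w v := by
    intro v j
    have h1 : HasFDerivAt (fun x => ee (ψ x) * F x j)
        ((ContinuousLinearMap.proj j : (Fin N → ℂ) →L[ℝ] ℂ).comp
          (fderiv ℝ (fun x j => ee (ψ x) * F x j) w)) w :=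
      (ContinuousLinearMap.proj j : (Fin N → ℂ) →L[ℝ] ℂ).hasFDerivAt.comp w hd.hasFDerivAt
    rw [h1.fderiv]
    rfl
  -- the derivative of the sphere equation
  have hsum : HasFDerivAt (fun x => ∑ j, ar (F x j))
      (∑ j, (arD (F w j)).comp
        ((ContinuousLinearMap.proj j : (Fin N → ℂ) →L[ℝ] ℂ).comp (fderiv ℝ F w))) w :=
    HasFDerivAt.fun_sum fun j _ => HasFDerivAt.comp (g := ar) (f := fun x => F x j) w
      (ar_hasFDerivAt (F w j)) (hFj j)
  have hconst : HasFDerivAt (fun x => ∑ j, ar (F x j)) (0 : (Fin n → ℂ) →L[ℝ] ℝ) w := by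
    refine (hasFDerivAt_const R w).congr_of_eventuallyEq ?_
    filter_upwards [hR] with x hx
    rw [← hx, Finset.mul_sum]
    rfl
  have h0 := hsum.unique hconst
  have h0' : ∀ v, ∑ j, arD (F w j) (fderiv ℝ F w v j) = 0 := by
    intro v
    have := congrArg (fun L : (Fin n → ℂ) →L[ℝ] ℝ => L v) h0
    simpa [ContinuousLinearMap.sum_apply] using this
  have hom : ∀ x y : Fin N → ℂ, omega x y = ∑ j, om1 (x j) (y j) := fun x y => rfl
  rw [hom, ← hF.om v v', hom]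
  have h2 : ∀ j, om1 (fderiv ℝ (fun x j => ee (ψ x) * F x j) w v j)
      (fderiv ℝ (fun x j => ee (ψ x) * F x j) w v' j) =
      om1 (fderiv ℝ F w v j) (fderiv ℝ F w v' j) +
        (arD (F w j) (fderiv ℝ F w v j) * fderiv ℝ ψ w v' -
          arD (F w j) (fderiv ℝ F w v' j) * fderiv ℝ ψ w v) := by
    intro j
    rw [hcomp, hcomp, om1_phase hψ.hasFDerivAt (hFj j)]
    rfl
  rw [Finset.sum_congr rfl fun j _ => h2 j, Finset.sum_add_distrib, Finset.sum_sub_distrib,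
    ← Finset.sum_mul, ← Finset.sum_mul, h0', h0']
  ring

/-! ### The integral shear -/

/-- the function of the shear -/
noncomputable def shG (k : ℕ) (R : ℝ) (m : ℤ) (u : Fin (k + 2) → ℝ) : ℝ :=
  -(m * (R - ∑ a, cf (k := k) a.succ * u a))

theorem shG_hasFDerivAt (k : ℕ) (R : ℝ) (m : ℤ) (u : Fin (k + 2) → ℝ) :
    HasFDerivAt (shG k R m)
      (∑ a, ((m * cf (k := k) a.succ : ℤ) : ℝ) •
        (ContinuousLinearMap.proj a : (Fin (k + 2) → ℝ) →L[ℝ] ℝ)) u := by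
  have h1 : shG k R m = fun u => -(m * R) + ∑ a, ((m * cf (k := k) a.succ : ℤ) : ℝ) * u a := by
    funext u
    unfold shG
    rw [mul_sub, Finset.mul_sum, neg_sub, sub_eq_neg_add, add_comm]
    rw [add_comm]
    congr 1
    refine Finset.sum_congr rfl fun a _ => ?_
    push_cast
    ring
  rw [h1]
  refine HasFDerivAt.const_add _ (HasFDerivAt.fun_sum fun a _ => ?_)
  exact ((ContinuousLinearMap.proj a : (Fin (k + 2) → ℝ) →L[ℝ] ℝ).hasFDerivAt).const_mul _

theorem shG_pd (k : ℕ) (R : ℝ) (m : ℤ) (a : Fin (k + 2)) (u : Fin (k + 2) → ℝ) :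
    pd (shG k R m) a u = ((m * cf (k := k) a.succ : ℤ) : ℝ) := by
  unfold pd
  rw [(shG_hasFDerivAt k R m u).fderiv]
  simp [ContinuousLinearMap.sum_apply, Pi.single_apply]

theorem shG_contDiff (k : ℕ) (R : ℝ) (m : ℤ) : ContDiff ℝ ∞ (shG k R m) := by
  unfold shG
  refine (contDiff_const.mul (contDiff_const.sub ?_)).neg
  exact ContDiff.sum fun a _ => contDiff_const.mul (contDiff_apply ℝ ℝ a)

theorem Lf_eq {k : ℕ} (R : ℝ) (w : Fin (k + 3) → ℂ) :
    Lf R w = R - ∑ a : Fin (k + 2), cf (k := k) a.succ * uu w a := by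
  unfold Lf
  rw [Fin.sum_univ_succ]
  have : cf (k := k) 0 = 0 := by unfold H684.cf; rw [if_pos rfl]
  rw [this]
  simp only [Int.cast_zero, zero_mul, zero_add]
  rfl

theorem Fr_eq_plc {k : ℕ} (R : ℝ) (m : ℤ) :
    Fr (k := k) R m = plc (fun z => z) (shG k R m) := by
  funext w b
  refine Fin.cases ?_ (fun a => ?_) b
  · rw [plc_zero]
    unfold Fr shG
    rw [if_pos rfl, Lf_eq]
    push_cast
    ring
  · rw [plc_succ, shG_pd]
    unfold Fr ee
    rw [if_neg (Fin.succ_ne_zero a)]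
    congr 3
    push_cast
    ring

theorem Fr_sympAt {k : ℕ} (R : ℝ) (m : ℤ) (w : Fin (k + 3) → ℂ) : SympAt (Fr R m) w := by
  rw [Fr_eq_plc]
  refine ⟨(plc_contDiffAt (shG_contDiff k R m) contDiffAt_id).differentiableAt (by simp),
    fun v v' => ?_⟩
  refine plc_sympl (shG_contDiff k R m) differentiableAt_fun_id (fun v v' => ?_) v v'
  simp

theorem Fr_contDiff {k : ℕ} (R : ℝ) (m : ℤ) : ContDiff ℝ ∞ (Fr (k := k) R m) := by
  rw [Fr_eq_plc, contDiff_iff_contDiffAt]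
  exact fun w => plc_contDiffAt (shG_contDiff k R m) contDiffAt_id


/-! ### The two permutations -/

theorem inv_zpow {α β : Type*} (σ : Equiv.Perm α) (f : α → β) (h : ∀ x, f (σ x) = f x) (m : ℤ)
    (x : α) : f ((σ ^ m) x) = f x := by
  induction m using Int.induction_on generalizing x with
  | zero => simp
  | succ n ih => rw [zpow_add_one, Equiv.Perm.mul_apply, ih, h]
  | pred n ih =>
    rw [zpow_sub_one, Equiv.Perm.mul_apply, ih]
    have h2 := h (σ⁻¹ x)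
    rw [show σ (σ⁻¹ x) = x from σ.apply_symm_apply x] at h2
    exact h2.symm

/-- exchange of the slots `1`, `2` -/
def S (k : ℕ) : Equiv.Perm (Fin (k + 3)) := Equiv.swap 1 2

/-- rotation `0 → 1 → 2 → 3 → 0` -/
def T (k : ℕ) : Equiv.Perm (Fin (k + 4)) :=
  Equiv.swap 0 1 * (Equiv.swap 1 2 * Equiv.swap 2 3)

theorem v1 {k : ℕ} : (1 : Fin (k + 3)).val = 1 := rfl
theorem v2 {k : ℕ} : (2 : Fin (k + 3)).val = 2 := rfl

theorem ne10 {k : ℕ} : (1 : Fin (k + 3)) ≠ 0 := fun h => by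
  have h2 : (1 : ℕ) = 0 := congrArg Fin.val h
  omega
theorem ne20 {k : ℕ} : (2 : Fin (k + 3)) ≠ 0 := fun h => by
  have h2 : (2 : ℕ) = 0 := congrArg Fin.val h
  omega
theorem ne21 {k : ℕ} : (2 : Fin (k + 3)) ≠ 1 := fun h => by
  have h2 : (2 : ℕ) = 1 := congrArg Fin.val h
  omega

theorem S_zero {k : ℕ} : S k 0 = 0 := Equiv.swap_apply_of_ne_of_ne ne10.symm ne20.symm
theorem S_one {k : ℕ} : S k 1 = 2 := Equiv.swap_apply_left _ _
theorem S_two {k : ℕ} : S k 2 = 1 := Equiv.swap_apply_right _ _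
theorem S_big {k : ℕ} (j : Fin k) : S k j.succ.succ.succ = j.succ.succ.succ := by
  refine Equiv.swap_apply_of_ne_of_ne ?_ ?_
  · intro h
    have h2 : j.val + 1 + 1 + 1 = 1 := congrArg Fin.val h
    omega
  · intro h
    have h2 : j.val + 1 + 1 + 1 = 2 := congrArg Fin.val h
    omega

theorem cf_zero {k : ℕ} : H684.cf (k := k) 0 = 0 := by unfold H684.cf; rw [if_pos rfl]
theorem cf_one {k : ℕ} : H684.cf (k := k) 1 = 2 := by
  unfold H684.cf; rw [if_neg ne10, if_pos (Or.inl rfl)]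
theorem cf_two {k : ℕ} : H684.cf (k := k) 2 = 2 := by
  unfold H684.cf; rw [if_neg ne20, if_pos (Or.inr rfl)]
theorem cf_big {k : ℕ} (j : Fin k) : H684.cf (k := k) j.succ.succ.succ = 1 := by
  unfold H684.cf
  rw [if_neg (Fin.succ_ne_zero _), if_neg]
  rintro (h | h)
  · have h2 : j.val + 1 + 1 + 1 = 1 := congrArg Fin.val h
    omega
  · have h2 : j.val + 1 + 1 + 1 = 2 := congrArg Fin.val h
    omega

theorem cf_S {k : ℕ} (b : Fin (k + 3)) : H684.cf (S k b) = H684.cf b := by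
  refine Fin.cases ?_ (fun b => Fin.cases ?_ (fun b => Fin.cases ?_ (fun b => ?_) b) b) b
  · rw [S_zero]
  · show H684.cf (S k 1) = H684.cf 1
    rw [S_one, cf_one, cf_two]
  · show H684.cf (S k 2) = H684.cf 2
    rw [S_two, cf_one, cf_two]
  · rw [S_big]

theorem cf_Sm {k : ℕ} (m : ℤ) (b : Fin (k + 3)) : H684.cf ((S k ^ m) b) = H684.cf b :=
  inv_zpow (S k) H684.cf cf_S m b

theorem Sm_zero {k : ℕ} (m : ℤ) : (S k ^ m) 0 = 0 :=
  Equiv.Perm.zpow_apply_eq_self_of_apply_eq_self S_zero m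

theorem Sm_big {k : ℕ} (m : ℤ) (j : Fin k) : (S k ^ m) j.succ.succ.succ = j.succ.succ.succ :=
  Equiv.Perm.zpow_apply_eq_self_of_apply_eq_self (S_big j) m

theorem Sm_eq_zero {k : ℕ} (m : ℤ) (b : Fin (k + 3)) : (S k ^ m) b = 0 ↔ b = 0 := by
  constructor
  · intro h
    exact (S k ^ m).injective (h.trans (Sm_zero m).symm)
  · rintro rfl
    exact Sm_zero m

theorem S_mul_S {k : ℕ} : S k * S k = 1 := Equiv.swap_mul_self _ _

theorem Sm_four {k : ℕ} (m q : ℤ) : S k ^ (m + 4 * q) = S k ^ m := by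
  have h : S k ^ (4 : ℤ) = 1 := by
    have : (S k) ^ (4 : ℤ) = (S k * S k) * (S k * S k) := by
      rw [show (4 : ℤ) = 1 + 1 + 1 + 1 by norm_num, zpow_add, zpow_add, zpow_add, zpow_one]
      group
    rw [this, S_mul_S, one_mul]
  rw [zpow_add, zpow_mul, h, one_zpow, mul_one]

theorem m10 {k : ℕ} : (1 : Fin (k + 4)) ≠ 0 := fun h => by
  have h2 : (1 : ℕ) = 0 := congrArg Fin.val h
  omega
theorem m20 {k : ℕ} : (2 : Fin (k + 4)) ≠ 0 := fun h => by
  have h2 : (2 : ℕ) = 0 := congrArg Fin.val h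
  omega
theorem m30 {k : ℕ} : (3 : Fin (k + 4)) ≠ 0 := fun h => by
  have h2 : (3 : ℕ) = 0 := congrArg Fin.val h
  omega
theorem m21 {k : ℕ} : (2 : Fin (k + 4)) ≠ 1 := fun h => by
  have h2 : (2 : ℕ) = 1 := congrArg Fin.val h
  omega
theorem m31 {k : ℕ} : (3 : Fin (k + 4)) ≠ 1 := fun h => by
  have h2 : (3 : ℕ) = 1 := congrArg Fin.val h
  omega
theorem m32 {k : ℕ} : (3 : Fin (k + 4)) ≠ 2 := fun h => by
  have h2 : (3 : ℕ) = 2 := congrArg Fin.val h
  omega
theorem mb0 {k : ℕ} (j : Fin k) : j.succ.succ.succ.succ ≠ (0 : Fin (k + 4)) := fun h => by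
  have h2 : j.val + 1 + 1 + 1 + 1 = 0 := congrArg Fin.val h
  omega
theorem mb1 {k : ℕ} (j : Fin k) : j.succ.succ.succ.succ ≠ (1 : Fin (k + 4)) := fun h => by
  have h2 : j.val + 1 + 1 + 1 + 1 = 1 := congrArg Fin.val h
  omega
theorem mb2 {k : ℕ} (j : Fin k) : j.succ.succ.succ.succ ≠ (2 : Fin (k + 4)) := fun h => by
  have h2 : j.val + 1 + 1 + 1 + 1 = 2 := congrArg Fin.val h
  omega
theorem mb3 {k : ℕ} (j : Fin k) : j.succ.succ.succ.succ ≠ (3 : Fin (k + 4)) := fun h => by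
  have h2 : j.val + 1 + 1 + 1 + 1 = 3 := congrArg Fin.val h
  omega

theorem T_apply {k : ℕ} (x : Fin (k + 4)) :
    T k x = Equiv.swap 0 1 (Equiv.swap 1 2 (Equiv.swap 2 3 x)) := rfl

theorem T_zero {k : ℕ} : T k 0 = 1 := by
  rw [T_apply, Equiv.swap_apply_of_ne_of_ne m20.symm m30.symm,
    Equiv.swap_apply_of_ne_of_ne m10.symm m20.symm, Equiv.swap_apply_left]
theorem T_one {k : ℕ} : T k 1 = 2 := by
  rw [T_apply, Equiv.swap_apply_of_ne_of_ne m21.symm m31.symm,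
    Equiv.swap_apply_left, Equiv.swap_apply_of_ne_of_ne m20 m21]
theorem T_two {k : ℕ} : T k 2 = 3 := by
  rw [T_apply, Equiv.swap_apply_left, Equiv.swap_apply_of_ne_of_ne m31 m32,
    Equiv.swap_apply_of_ne_of_ne m30 m31]
theorem T_three {k : ℕ} : T k 3 = 0 := by
  rw [T_apply, Equiv.swap_apply_right, Equiv.swap_apply_right, Equiv.swap_apply_right]
theorem T_big {k : ℕ} (j : Fin k) : T k j.succ.succ.succ.succ = j.succ.succ.succ.succ := by
  rw [T_apply, Equiv.swap_apply_of_ne_of_ne (mb2 j) (mb3 j),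
    Equiv.swap_apply_of_ne_of_ne (mb1 j) (mb2 j), Equiv.swap_apply_of_ne_of_ne (mb0 j) (mb1 j)]

theorem cases4 {k : ℕ} {P : Fin (k + 4) → Prop} (h0 : P 0) (h1 : P 1) (h2 : P 2) (h3 : P 3)
    (h : ∀ j : Fin k, P j.succ.succ.succ.succ) (x : Fin (k + 4)) : P x := by
  refine Fin.cases h0 (fun b => Fin.cases h1 (fun b => Fin.cases h2 (fun b => Fin.cases h3
    (fun b => h b) b) b) b) x

theorem T_four {k : ℕ} : T k ^ (4 : ℤ) = 1 := by
  have h : T k ^ (4 : ℤ) = T k * (T k * (T k * T k)) := by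
    rw [show (4 : ℤ) = 1 + (1 + (1 + 1)) by norm_num, zpow_add, zpow_add, zpow_add, zpow_one]
  rw [h]
  refine Equiv.ext fun x => ?_
  refine cases4 (P := fun x => (T k * (T k * (T k * T k))) x = (1 : Equiv.Perm (Fin (k + 4))) x)
    ?_ ?_ ?_ ?_ (fun j => ?_) x
  · simp only [Equiv.Perm.mul_apply, T_zero, T_one, T_two, T_three, Equiv.Perm.one_apply]
  · simp only [Equiv.Perm.mul_apply, T_zero, T_one, T_two, T_three, Equiv.Perm.one_apply]
  · simp only [Equiv.Perm.mul_apply, T_zero, T_one, T_two, T_three, Equiv.Perm.one_apply]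
  · simp only [Equiv.Perm.mul_apply, T_zero, T_one, T_two, T_three, Equiv.Perm.one_apply]
  · simp only [Equiv.Perm.mul_apply, T_big, Equiv.Perm.one_apply]

theorem Tm_four {k : ℕ} (m q : ℤ) : T k ^ (m + 4 * q) = T k ^ m := by
  rw [zpow_add, zpow_mul, T_four, one_zpow, mul_one]

theorem Tm_big {k : ℕ} (m : ℤ) (j : Fin k) :
    (T k ^ m) j.succ.succ.succ.succ = j.succ.succ.succ.succ :=
  Equiv.Perm.zpow_apply_eq_self_of_apply_eq_self (T_big j) m


/-! ### Frames -/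

/-- the frame `m` coordinates, with the active pair in slot `1` -/
noncomputable def yy {k : ℕ} (R : ℝ) (m : ℤ) (w : Fin (k + 3) → ℂ) : Fin (k + 3) → ℂ :=
  fun b => Fr R m w ((S k ^ m) b)

/-- one step to the next frame -/
noncomputable def stp {k : ℕ} (R : ℝ) (y : Fin (k + 3) → ℂ) : Fin (k + 3) → ℂ :=
  fun b => Fr R 1 y (S k b)

theorem Fr_zero_slot {k : ℕ} (R : ℝ) (m : ℤ) (w : Fin (k + 3) → ℂ) :
    Fr R m w 0 = w 0 - ((m * Lf R w : ℝ) : ℂ) := by unfold Fr; rw [if_pos rfl]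

theorem Fr_ne {k : ℕ} (R : ℝ) (m : ℤ) (w : Fin (k + 3) → ℂ) {b : Fin (k + 3)} (hb : b ≠ 0) :
    Fr R m w b = ee (-(m * H684.cf b * (w 0).im)) * w b := by unfold Fr; rw [if_neg hb]

theorem ar_Fr {k : ℕ} (R : ℝ) (m : ℤ) (w : Fin (k + 3) → ℂ) {b : Fin (k + 3)} (hb : b ≠ 0) :
    ar (Fr R m w b) = ar (w b) := by
  rw [Fr_ne R m w hb, ar_mul_of_norm_one (ee_norm _)]

theorem cf_mul_ar {k : ℕ} (R : ℝ) (m : ℤ) (w : Fin (k + 3) → ℂ) (b : Fin (k + 3)) :
    (H684.cf b : ℝ) * ar (Fr R m w b) = H684.cf b * ar (w b) := by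
  by_cases hb : b = 0
  · subst hb
    rw [cf_zero]
    simp
  · rw [ar_Fr R m w hb]

theorem Lf_Fr {k : ℕ} (R : ℝ) (m : ℤ) (w : Fin (k + 3) → ℂ) : Lf R (Fr R m w) = Lf R w := by
  unfold Lf
  rw [Finset.sum_congr rfl fun b _ => cf_mul_ar R m w b]

theorem Lf_perm {k : ℕ} (R : ℝ) (m : ℤ) (w : Fin (k + 3) → ℂ) :
    Lf R (fun b => w ((S k ^ m) b)) = Lf R w := by
  unfold Lf
  have h : ∀ b, (H684.cf b : ℝ) * ar (w ((S k ^ m) b)) =
      (fun c => (H684.cf c : ℝ) * ar (w c)) ((S k ^ m) b) := by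
    intro b
    simp only [cf_Sm]
  rw [Finset.sum_congr rfl fun b _ => h b, Equiv.sum_comp (S k ^ m)
    (fun c => (H684.cf c : ℝ) * ar (w c))]

theorem Lf_yy {k : ℕ} (R : ℝ) (m : ℤ) (w : Fin (k + 3) → ℂ) : Lf R (yy R m w) = Lf R w := by
  unfold yy
  rw [Lf_perm, Lf_Fr]

theorem yy_zero {k : ℕ} (R : ℝ) (m : ℤ) (w : Fin (k + 3) → ℂ) :
    yy R m w 0 = w 0 - ((m * Lf R w : ℝ) : ℂ) := by
  unfold yy
  rw [Sm_zero, Fr_zero_slot]

theorem yy_re {k : ℕ} (R : ℝ) (m : ℤ) (w : Fin (k + 3) → ℂ) :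
    (yy R m w 0).re = (w 0).re - m * Lf R w := by
  rw [yy_zero, Complex.sub_re, Complex.ofReal_re]

theorem yy_im {k : ℕ} (R : ℝ) (m : ℤ) (w : Fin (k + 3) → ℂ) :
    (yy R m w 0).im = (w 0).im := by
  rw [yy_zero, Complex.sub_im, Complex.ofReal_im, sub_zero]

theorem Fr_add {k : ℕ} (R : ℝ) (m m' : ℤ) (w : Fin (k + 3) → ℂ) :
    Fr R (m + m') w = Fr R m (Fr R m' w) := by
  funext b
  by_cases hb : b = 0
  · subst hb
    rw [Fr_zero_slot, Fr_zero_slot, Fr_zero_slot, Lf_Fr]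
    push_cast
    ring
  · rw [Fr_ne _ _ _ hb, Fr_ne _ _ _ hb, Fr_ne _ _ _ hb, Fr_zero_slot, Complex.sub_im,
      Complex.ofReal_im, sub_zero, ← mul_assoc, ← ee_add]
    congr 2
    push_cast
    ring

theorem Fr_zero {k : ℕ} (R : ℝ) (w : Fin (k + 3) → ℂ) : Fr R 0 w = w := by
  funext b
  by_cases hb : b = 0
  · subst hb
    rw [Fr_zero_slot]
    simp
  · rw [Fr_ne _ _ _ hb]
    simp [ee_zero]

theorem yy_succ {k : ℕ} (R : ℝ) (m : ℤ) (w : Fin (k + 3) → ℂ) :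
    yy R (m + 1) w = stp R (yy R m w) := by
  funext b
  show Fr R (m + 1) w ((S k ^ (m + 1)) b) = Fr R 1 (yy R m w) (S k b)
  have hS : (S k ^ (m + 1)) b = (S k ^ m) (S k b) := by
    rw [zpow_add_one, Equiv.Perm.mul_apply]
  rw [hS]
  by_cases hb : S k b = 0
  · rw [hb, Sm_zero, Fr_zero_slot, Fr_zero_slot, Lf_yy, yy_zero]
    push_cast
    ring
  · have hb2 : (S k ^ m) (S k b) ≠ 0 := fun h => hb ((Sm_eq_zero m _).1 h)
    rw [Fr_ne _ _ _ hb2, Fr_ne _ _ _ hb, yy_im]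
    show _ = _ * Fr R m w ((S k ^ m) (S k b))
    rw [Fr_ne _ _ _ hb2, cf_Sm, ← mul_assoc, ← ee_add]
    congr 2
    push_cast
    ring

theorem stp_zero {k : ℕ} (R : ℝ) (y : Fin (k + 3) → ℂ) :
    stp R y 0 = y 0 - ((Lf R y : ℝ) : ℂ) := by
  unfold stp
  rw [S_zero, Fr_zero_slot]
  simp

theorem stp_one {k : ℕ} (R : ℝ) (y : Fin (k + 3) → ℂ) :
    stp R y 1 = ee (-(2 * (y 0).im)) * y 2 := by
  unfold stp
  rw [S_one, Fr_ne _ _ _ ne20, cf_two]
  norm_num

theorem stp_two {k : ℕ} (R : ℝ) (y : Fin (k + 3) → ℂ) :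
    stp R y 2 = ee (-(2 * (y 0).im)) * y 1 := by
  unfold stp
  rw [S_two, Fr_ne _ _ _ ne10, cf_one]
  norm_num

theorem stp_big {k : ℕ} (R : ℝ) (y : Fin (k + 3) → ℂ) (j : Fin k) :
    stp R y j.succ.succ.succ = ee (-((y 0).im)) * y j.succ.succ.succ := by
  unfold stp
  rw [S_big, Fr_ne _ _ _ (Fin.succ_ne_zero _), cf_big]
  norm_num

theorem Lf_stp {k : ℕ} (R : ℝ) (y : Fin (k + 3) → ℂ) : Lf R (stp R y) = Lf R y := by
  have h := Lf_perm R 1 (Fr R 1 y)
  rw [zpow_one, Lf_Fr] at h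
  exact h

section Main

variable {k : ℕ} {R c δ : ℝ} {Lc : (Fin (k + 3) → ℂ) → (Fin (k + 4) → ℂ)}

/-- the gluing identity between two adjacent gates -/
theorem glue (hL : LocSpec R c δ Lc) {y : Fin (k + 3) → ℂ} (hc : c < Lf R y)
    (h1 : |(y 0).re| < Lf R y - 2 * δ) (h2 : |(y 0).re - Lf R y| < Lf R y - 2 * δ)
    (j : Fin (k + 4)) : ee (y 0).im * Lc (stp R y) ((T k).symm j) = Lc y j := by
  have h1' := abs_lt.1 h1
  have h2' := abs_lt.1 h2
  have hy : 2 * δ ≤ (y 0).re := by linarith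
  have hz0 : (stp R y 0).re = (y 0).re - Lf R y := by
    rw [stp_zero, Complex.sub_re, Complex.ofReal_re]
  have hz0i : (stp R y 0).im = (y 0).im := by
    rw [stp_zero, Complex.sub_im, Complex.ofReal_im, sub_zero]
  have hzL : Lf R (stp R y) = Lf R y := Lf_stp R y
  have hc' : c < Lf R (stp R y) := by rw [hzL]; exact hc
  have hz1 : |(stp R y 0).re| < Lf R (stp R y) - 2 * δ := by rw [hz0, hzL]; exact h2
  have hz2 : (stp R y 0).re ≤ -(2 * δ) := by rw [hz0]; linarith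
  obtain ⟨r0, r2, r3⟩ := hL.right y hc h1 hy
  obtain ⟨l0, l2, l3⟩ := hL.left (stp R y) hc' hz1 hz2
  rw [hz0i] at l0 l2
  rw [hz0] at l2 l3
  rw [hzL] at l3
  rw [stp_one] at l0 l2
  rw [stp_two] at l3
  rw [ar_mul_of_norm_one (ee_norm _)] at l2 l3
  have e1 : (T k).symm 0 = 3 := (Equiv.symm_apply_eq _).2 T_three.symm
  have e2 : (T k).symm 1 = 0 := (Equiv.symm_apply_eq _).2 T_zero.symm
  have e3 : (T k).symm 2 = 1 := (Equiv.symm_apply_eq _).2 T_one.symm
  have e4 : (T k).symm 3 = 2 := (Equiv.symm_apply_eq _).2 T_two.symm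
  refine cases4 (P := fun j => ee (y 0).im * Lc (stp R y) ((T k).symm j) = Lc y j)
    ?_ ?_ ?_ ?_ (fun j => ?_) j
  · show ee (y 0).im * Lc (stp R y) ((T k).symm 0) = Lc y 0
    rw [e1, r0, l3]
    congr 4
    ring
  · show ee (y 0).im * Lc (stp R y) ((T k).symm 1) = Lc y 1
    rw [e2, l0, hL.one y hc h1, ← mul_assoc, ← mul_assoc, ← ee_add, ← ee_add]
    rw [show (y 0).im + (y 0).im + -(2 * (y 0).im) = 0 by ring, ee_zero, one_mul]
  · show ee (y 0).im * Lc (stp R y) ((T k).symm 2) = Lc y 2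
    rw [e3, hL.one _ hc' hz1, stp_two, r2, ← mul_assoc, ← ee_add]
    congr 2
    ring
  · show ee (y 0).im * Lc (stp R y) ((T k).symm 3) = Lc y 3
    rw [e4, l2, r3, ← mul_assoc, ee_mul_neg, one_mul]
    congr 3
    ring
  · show ee (y 0).im * Lc (stp R y) ((T k).symm j.succ.succ.succ.succ) =
      Lc y j.succ.succ.succ.succ
    have e5 : (T k).symm j.succ.succ.succ.succ = j.succ.succ.succ.succ :=
      (Equiv.symm_apply_eq _).2 (T_big j).symm
    rw [e5, hL.single _ hc' hz1, hL.single _ hc h1, stp_big, ← mul_assoc, ee_mul_neg, one_mul]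

/-- the model map in the frame of the gate `m` -/
noncomputable def GG (R : ℝ) (Lc : (Fin (k + 3) → ℂ) → (Fin (k + 4) → ℂ)) (m : ℤ)
    (w : Fin (k + 3) → ℂ) : Fin (k + 4) → ℂ :=
  fun j => ee (m * (w 0).im) * Lc (yy R m w) (((T k) ^ m).symm j)

/-- the domain of the frame `m` -/
def DD (k : ℕ) (R c δ : ℝ) (m : ℤ) : Set (Fin (k + 3) → ℂ) :=
  {w | c < Lf R w ∧ |(w 0).re - m * Lf R w| < Lf R w - 2 * δ}

theorem GG_succ (hL : LocSpec R c δ Lc) {m : ℤ} {w : Fin (k + 3) → ℂ}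
    (h1 : w ∈ DD k R c δ m) (h2 : w ∈ DD k R c δ (m + 1)) :
    GG R Lc (m + 1) w = GG R Lc m w := by
  funext j
  unfold GG
  have hy0 : (yy R m w 0).im = (w 0).im := yy_im R m w
  have hg := glue hL (y := yy R m w) (by rw [Lf_yy]; exact h1.1)
    (by rw [Lf_yy, yy_re]; exact h1.2) (by
      rw [Lf_yy, yy_re]
      have h3 := h2.2
      push_cast at h3
      have h4 : (w 0).re - m * Lf R w - Lf R w = (w 0).re - (m + 1) * Lf R w := by ring
      rw [h4]
      exact h3) (((T k) ^ m).symm j)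
  rw [← hg, hy0, yy_succ]
  have hT : ((T k) ^ (m + 1)).symm j = (T k).symm (((T k) ^ m).symm j) := by
    rw [Equiv.symm_apply_eq, zpow_add_one, Equiv.Perm.mul_apply, Equiv.apply_symm_apply,
      Equiv.apply_symm_apply]
  rw [hT, ← mul_assoc, ← ee_add]
  congr 2
  push_cast
  ring

theorem GG_eq (hL : LocSpec R c δ Lc) (hδ : 0 < δ) (hc : 0 < c) {m m' : ℤ}
    {w : Fin (k + 3) → ℂ} (h1 : w ∈ DD k R c δ m) (h2 : w ∈ DD k R c δ m') :
    GG R Lc m w = GG R Lc m' w := by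
  have hL0 : 0 < Lf R w := hc.trans h1.1
  have a1 := abs_lt.1 h1.2
  have a2 := abs_lt.1 h2.2
  have hlt : ((m' - m : ℤ) : ℝ) * Lf R w < 2 * Lf R w := by
    push_cast
    linarith
  have hlt2 : ((m - m' : ℤ) : ℝ) * Lf R w < 2 * Lf R w := by
    push_cast
    linarith
  have b1 : ((m' - m : ℤ) : ℝ) < 2 := lt_of_mul_lt_mul_right hlt hL0.le
  have b2 : ((m - m' : ℤ) : ℝ) < 2 := lt_of_mul_lt_mul_right hlt2 hL0.le
  have c1 : m' - m < 2 := by exact_mod_cast b1
  have c2 : m - m' < 2 := by exact_mod_cast b2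
  have hcases : m' = m ∨ m' = m + 1 ∨ m = m' + 1 := by omega
  rcases hcases with h | h | h
  · rw [h]
  · subst h
    exact (GG_succ hL h1 h2).symm
  · subst h
    exact GG_succ hL h2 h1

theorem yy_contDiff (R : ℝ) (m : ℤ) : ContDiff ℝ ∞ (yy (k := k) R m) := by
  unfold yy
  rw [contDiff_pi]
  intro b
  exact (contDiff_pi.1 (Fr_contDiff R m)) ((S k ^ m) b)

theorem yy_sympAt (R : ℝ) (m : ℤ) (w : Fin (k + 3) → ℂ) : SympAt (yy (k := k) R m) w :=
  (sympAt_perm (S k ^ m) (Fr R m w)).comp (Fr_sympAt R m w)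

theorem Lf_continuous (R : ℝ) : Continuous (Lf (k := k) R) := by
  unfold Lf
  refine continuous_const.sub (continuous_finset_sum _ fun b _ => continuous_const.mul ?_)
  exact ar_contDiff.continuous.comp (continuous_apply b)

theorem DD_isOpen (R c δ : ℝ) (m : ℤ) : IsOpen (DD k R c δ m) := by
  have h0 : Continuous fun w : Fin (k + 3) → ℂ => (w 0).re :=
    Complex.continuous_re.comp (continuous_apply 0)
  refine IsOpen.inter (isOpen_lt continuous_const (Lf_continuous R)) ?_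
  exact isOpen_lt (h0.sub (continuous_const.mul (Lf_continuous R))).abs
    ((Lf_continuous R).sub continuous_const)

theorem dom_isOpen (R c δ : ℝ) :
    IsOpen {w : Fin (k + 3) → ℂ | c < Lf R w ∧ |(w 0).re| < Lf R w - 2 * δ} := by
  have h0 : Continuous fun w : Fin (k + 3) → ℂ => (w 0).re :=
    Complex.continuous_re.comp (continuous_apply 0)
  refine IsOpen.inter (isOpen_lt continuous_const (Lf_continuous R)) ?_
  exact isOpen_lt h0.abs ((Lf_continuous R).sub continuous_const)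

theorem mem_yy {m : ℤ} {w : Fin (k + 3) → ℂ} (hw : w ∈ DD k R c δ m) :
    c < Lf R (yy R m w) ∧ |(yy R m w 0).re| < Lf R (yy R m w) - 2 * δ := by
  rw [Lf_yy, yy_re]
  exact hw

theorem GG_contDiffAt (hL : LocSpec R c δ Lc) {m : ℤ} {w : Fin (k + 3) → ℂ}
    (hw : w ∈ DD k R c δ m) : ContDiffAt ℝ ∞ (GG R Lc m) w := by
  have h1 : ContDiffAt ℝ ∞ Lc (yy R m w) :=
    hL.smooth.contDiffAt ((dom_isOpen R c δ).mem_nhds (mem_yy hw))
  have h2 : ContDiffAt ℝ ∞ (fun w => Lc (yy R m w)) w := h1.comp w (yy_contDiff R m).contDiffAt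
  unfold GG
  rw [contDiffAt_pi]
  intro j
  have h3 := (contDiffAt_pi.1 h2) (((T k) ^ m).symm j)
  refine ContDiffAt.mul ?_ h3
  have h4 : ContDiff ℝ ∞ (fun w : Fin (k + 3) → ℂ => (m : ℝ) * (w 0).im) :=
    contDiff_const.mul (Complex.imCLM.contDiff.comp (contDiff_apply ℝ ℂ 0))
  exact (ee_contDiff.comp h4).contDiffAt

theorem norm_perm_sum {n : ℕ} (σ : Equiv.Perm (Fin n)) (z : Fin n → ℂ) :
    ∑ j, ‖z (σ j)‖ ^ 2 = ∑ j, ‖z j‖ ^ 2 := Equiv.sum_comp σ (fun j => ‖z j‖ ^ 2)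

theorem GG_sphere (hL : LocSpec R c δ Lc) {m : ℤ} {w : Fin (k + 3) → ℂ}
    (hw : w ∈ DD k R c δ m) : Real.pi * ∑ j, ‖GG R Lc m w j‖ ^ 2 = R := by
  have h1 := hL.sphere (yy R m w) (mem_yy hw).1 (mem_yy hw).2
  refine Eq.trans ?_ h1
  congr 1
  rw [← norm_perm_sum ((T k) ^ m).symm (Lc (yy R m w))]
  refine Finset.sum_congr rfl fun j _ => ?_
  unfold GG
  rw [norm_mul, ee_norm, one_mul]

theorem GG_sympAt (hL : LocSpec R c δ Lc) {m : ℤ} {w : Fin (k + 3) → ℂ}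
    (hw : w ∈ DD k R c δ m) : SympAt (GG R Lc m) w := by
  have h1 : ContDiffAt ℝ ∞ Lc (yy R m w) :=
    hL.smooth.contDiffAt ((dom_isOpen R c δ).mem_nhds (mem_yy hw))
  have h2 : SympAt Lc (yy R m w) :=
    ⟨h1.differentiableAt (by simp), hL.sympl _ (mem_yy hw).1 (mem_yy hw).2⟩
  have h3 : SympAt (fun w => Lc (yy R m w)) w := h2.comp (yy_sympAt R m w)
  have h4 : SympAt (fun w j => Lc (yy R m w) (((T k) ^ m).symm j)) w :=
    SympAt.comp (g := fun (z : Fin (k + 4) → ℂ) j => z (((T k) ^ m).symm j))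
      (f := fun w => Lc (yy R m w)) (sympAt_perm (((T k) ^ m).symm) (Lc (yy R m w))) h3
  refine sympAt_phase (ψ := fun w => (m : ℝ) * (w 0).im) (R := R) h4 ?_ ?_
  · have h5 : ContDiff ℝ ∞ (fun w : Fin (k + 3) → ℂ => (m : ℝ) * (w 0).im) :=
      contDiff_const.mul (Complex.imCLM.contDiff.comp (contDiff_apply ℝ ℂ 0))
    exact (h5.differentiable (by simp)) w
  · filter_upwards [(DD_isOpen R c δ m).mem_nhds hw] with x hx
    rw [norm_perm_sum]
    exact hL.sphere (yy R m x) (mem_yy hx).1 (mem_yy hx).2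

/-- the nearest gate -/
noncomputable def near (R : ℝ) (w : Fin (k + 3) → ℂ) : ℤ := round ((w 0).re / Lf R w)

theorem near_le {w : Fin (k + 3) → ℂ} (hL0 : 0 < Lf R w) :
    |(w 0).re - near R w * Lf R w| ≤ Lf R w / 2 := by
  have h1 : |(w 0).re / Lf R w - round ((w 0).re / Lf R w)| ≤ 1 / 2 := abs_sub_round _
  have h2 : (w 0).re - near R w * Lf R w =
      ((w 0).re / Lf R w - round ((w 0).re / Lf R w)) * Lf R w := by
    unfold near
    field_simp
  rw [h2, abs_mul, abs_of_pos hL0]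
  nlinarith

theorem near_mem (hδ : 4 * δ < c) (hc : 0 < c) {w : Fin (k + 3) → ℂ} (hw : c < Lf R w) :
    w ∈ DD k R c δ (near R w) :=
  ⟨hw, lt_of_le_of_lt (near_le (hc.trans hw)) (by linarith)⟩

/-- the model map -/
noncomputable def Gm (R : ℝ) (Lc : (Fin (k + 3) → ℂ) → (Fin (k + 4) → ℂ))
    (w : Fin (k + 3) → ℂ) : Fin (k + 4) → ℂ := GG R Lc (near R w) w

theorem Gm_eq (hL : LocSpec R c δ Lc) (hδ0 : 0 < δ) (hδ : 4 * δ < c) (hc : 0 < c) {m : ℤ}
    {w : Fin (k + 3) → ℂ} (hw : w ∈ DD k R c δ m) : Gm R Lc w = GG R Lc m w :=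
  GG_eq hL hδ0 hc (near_mem hδ hc hw.1) hw

theorem Gm_eventually (hL : LocSpec R c δ Lc) (hδ0 : 0 < δ) (hδ : 4 * δ < c) (hc : 0 < c) {m : ℤ}
    {w : Fin (k + 3) → ℂ} (hw : w ∈ DD k R c δ m) : Gm R Lc =ᶠ[nhds w] GG R Lc m := by
  filter_upwards [(DD_isOpen R c δ m).mem_nhds hw] with x hx
  exact Gm_eq hL hδ0 hδ hc hx

theorem Fr_theta (R : ℝ) (m l : ℤ) (w : Fin (k + 3) → ℂ) :
    Fr R m (w + Pi.single 0 ((l : ℂ) * Complex.I)) =
      Fr R m w + Pi.single 0 ((l : ℂ) * Complex.I) := by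
  have hLf : Lf R (w + Pi.single 0 ((l : ℂ) * Complex.I)) = Lf R w := by
    unfold Lf
    congr 1
    refine Finset.sum_congr rfl fun b _ => ?_
    by_cases hb : b = 0
    · subst hb
      rw [cf_zero]
      simp
    · rw [Pi.add_apply, Pi.single_eq_of_ne hb, add_zero]
  funext b
  by_cases hb : b = 0
  · subst hb
    rw [Fr_zero_slot, hLf, Pi.add_apply, Pi.add_apply, Fr_zero_slot, Pi.single_eq_same]
    ring
  · rw [Fr_ne _ _ _ hb, Pi.add_apply, Pi.add_apply, Pi.add_apply, Fr_ne _ _ _ hb,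
      Pi.single_eq_of_ne hb, Pi.single_eq_same, add_zero, add_zero]
    congr 1
    have h1 : ((w 0 + (l : ℂ) * Complex.I).im) = (w 0).im + l := by simp
    rw [h1]
    have h2 : -(m * H684.cf b * ((w 0).im + l) : ℝ) =
        -(m * H684.cf b * (w 0).im) + ((-(m * H684.cf b * l) : ℤ) : ℝ) := by
      push_cast
      ring
    rw [h2, ee_add_int]

/-- injectivity in a common frame modulo `4` -/
theorem inj_frame (hL : LocSpec R c δ Lc) {w w' : Fin (k + 3) → ℂ} {m m' q : ℤ}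
    (hm : m = m' + 4 * q) (hw : w ∈ DD k R c δ m) (hw' : w' ∈ DD k R c δ m') {μ : ℂ}
    (hμ : ‖μ‖ = 1) (h : GG R Lc m w = μ • GG R Lc m' w') :
    ∃ q l : ℤ, w' = Fr R (4 * q) (w + Pi.single 0 ((l : ℂ) * Complex.I)) := by
  obtain ⟨hy, hyd⟩ := mem_yy hw
  obtain ⟨hy', hyd'⟩ := mem_yy hw'
  have hT : (T k) ^ m = (T k) ^ m' := by rw [hm, Tm_four]
  have hS : (S k) ^ m = (S k) ^ m' := by rw [hm, Sm_four]
  set ν : ℂ := μ * ee (m' * (w' 0).im) * ee (-(m * (w 0).im)) with hν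
  have hνn : ‖ν‖ = 1 := by rw [hν, norm_mul, norm_mul, hμ, ee_norm, ee_norm]; norm_num
  have hj : ∀ i, Lc (yy R m w) i = ν * Lc (yy R m' w') i := by
    intro i
    have h1 := congrFun h (((T k) ^ m) i)
    unfold GG at h1
    rw [Pi.smul_apply, smul_eq_mul, ← hT, Equiv.symm_apply_apply] at h1
    have h2 : ee (-(m * (w 0).im)) * (ee (m * (w 0).im) * Lc (yy R m w) i) =
        Lc (yy R m w) i := by
      rw [← mul_assoc, ee_neg_mul, one_mul]
    rw [← h2, h1, hν]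
    ring
  obtain ⟨p3, i3⟩ := hL.three _ hy hyd
  obtain ⟨p3', i3'⟩ := hL.three _ hy' hyd'
  have h3 := hj 3
  have hreal : Lc (yy R m w) 3 = ((Lc (yy R m w) 3).re : ℂ) := by
    apply Complex.ext <;> simp [i3]
  have hreal' : Lc (yy R m' w') 3 = ((Lc (yy R m' w') 3).re : ℂ) := by
    apply Complex.ext <;> simp [i3']
  have hν1 : ν = 1 := by
    have hn := congrArg norm h3
    rw [norm_mul, hνn, one_mul, hreal, hreal', Complex.norm_real, Complex.norm_real,
      Real.norm_of_nonneg p3.le, Real.norm_of_nonneg p3'.le] at hn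
    rw [hreal, hreal', hn] at h3
    have hne : ((Lc (yy R m' w') 3).re : ℂ) ≠ 0 := by exact_mod_cast p3'.ne'
    have h4 : (1 - ν) * ((Lc (yy R m' w') 3).re : ℂ) = 0 := by
      rw [sub_mul, one_mul, ← h3, sub_self]
    rcases mul_eq_zero.1 h4 with h5 | h5
    · exact (sub_eq_zero.1 h5).symm
    · exact absurd h5 hne
  have heq : Lc (yy R m w) = Lc (yy R m' w') := by
    funext i
    rw [hj i, hν1, one_mul]
  obtain ⟨l, hl⟩ := hL.inj _ _ hy hyd hy' hyd' heq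
  refine ⟨q, l, ?_⟩
  have hFr : Fr R m' w' = Fr R m w + Pi.single 0 ((l : ℂ) * Complex.I) := by
    funext b
    have h5 := congrFun hl (((S k) ^ m).symm b)
    rw [Pi.add_apply] at h5
    unfold yy at h5
    rw [← hS, Equiv.apply_symm_apply] at h5
    rw [h5, Pi.add_apply]
    congr 1
    by_cases hb : b = 0
    · subst hb
      have : ((S k) ^ m).symm 0 = 0 := (Equiv.symm_apply_eq _).2 (Sm_zero m).symm
      rw [this]
    · have : ((S k) ^ m).symm b ≠ 0 := fun h => hb (by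
        rw [Equiv.symm_apply_eq, Sm_zero] at h
        exact h)
      rw [Pi.single_eq_of_ne this, Pi.single_eq_of_ne hb]
  have h6 : w' = Fr R (-m') (Fr R m' w') := by
    rw [← Fr_add, neg_add_cancel, Fr_zero]
  rw [h6, hFr, ← Fr_theta, ← Fr_add]
  congr 1
  omega

/-- the gap in the nearest frame -/
theorem near_gap (hL : LocSpec R c δ Lc) (hc : 0 < c) {w : Fin (k + 3) → ℂ} (hw : c < Lf R w) :
    2 * δ < ar (Lc (yy R (near R w) w) 3) - ar (Lc (yy R (near R w) w) 1) := by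
  refine hL.gap _ (by rw [Lf_yy]; exact hw) ?_
  rw [Lf_yy, yy_re]
  exact near_le (hc.trans hw)

theorem ar_GG (m : ℤ) (w : Fin (k + 3) → ℂ) (j : Fin (k + 4)) :
    ar (GG R Lc m w j) = ar (Lc (yy R m w) (((T k) ^ m).symm j)) := by
  unfold GG
  rw [ar_mul_of_norm_one (ee_norm _)]

theorem ar_rel {m m' d : ℤ} (hd : m = m' + d) {w w' : Fin (k + 3) → ℂ} {μ : ℂ} (hμ : ‖μ‖ = 1)
    (h : GG R Lc m w = μ • GG R Lc m' w') (i : Fin (k + 4)) :
    ar (Lc (yy R m w) i) = ar (Lc (yy R m' w') (((T k) ^ d) i)) := by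
  have h1 := congrArg ar (congrFun h (((T k) ^ m) i))
  rw [Pi.smul_apply, smul_eq_mul, ar_mul_of_norm_one hμ, ar_GG, ar_GG,
    Equiv.symm_apply_apply] at h1
  rw [h1]
  congr 2
  rw [Equiv.symm_apply_eq, hd, zpow_add, Equiv.Perm.mul_apply]

theorem gm_inj (hL : LocSpec R c δ Lc) (hδ0 : 0 < δ) (hδ : 4 * δ < c) (hc : 0 < c)
    {w w' : Fin (k + 3) → ℂ} (hw : c < Lf R w) (hw' : c < Lf R w') {μ : ℂ} (hμ : ‖μ‖ = 1)
    (h : Gm R Lc w = μ • Gm R Lc w') :
    ∃ q l : ℤ, w' = Fr R (4 * q) (w + Pi.single 0 ((l : ℂ) * Complex.I)) := by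
  set m := near R w with hm
  set m' := near R w' with hm'
  have hD : w ∈ DD k R c δ m := near_mem hδ hc hw
  have hD' : w' ∈ DD k R c δ m' := near_mem hδ hc hw'
  have h0 : GG R Lc m w = μ • GG R Lc m' w' := h
  have hn := near_le (hc.trans hw)
  rw [← hm] at hn
  have hn' := abs_le.1 hn
  have hdiff := hL.diff (yy R m w) (mem_yy hD).1 (mem_yy hD).2
  rw [yy_re] at hdiff
  have hgap := near_gap hL hc hw
  have hgap' := near_gap hL hc hw'
  rw [← hm] at hgap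
  rw [← hm'] at hgap'
  obtain ⟨q, r, hr0, hr4, hqr⟩ : ∃ q r : ℤ, 0 ≤ r ∧ r < 4 ∧ m = m' + (r + 4 * q) :=
    ⟨(m - m') / 4, (m - m') % 4, Int.emod_nonneg _ (by norm_num), Int.emod_lt_of_pos _ (by norm_num),
      by omega⟩
  have hcases : r = 0 ∨ r = 1 ∨ r = 2 ∨ r = 3 := by omega
  rcases hcases with rfl | rfl | rfl | rfl
  · exact inj_frame hL (q := q) (by omega) hD hD' hμ h0
  · -- the point `w` is on the side before its gate
    have hT : (T k) ^ ((1 : ℤ) + 4 * q) = T k := by rw [Tm_four, zpow_one]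
    have h1 := ar_rel hqr hμ h0 0
    have h2 := ar_rel hqr hμ h0 2
    rw [hT, T_zero] at h1
    rw [hT, T_two] at h2
    have hk : (w 0).re - m * Lf R w < -(2 * δ) := by
      rw [← hdiff, h1, h2]
      linarith
    have hD2 : w ∈ DD k R c δ (m - 1) := by
      refine ⟨hw, ?_⟩
      push_cast
      rw [abs_lt]
      constructor <;> nlinarith [hn'.1, hn'.2]
    have h3 : GG R Lc (m - 1) w = μ • GG R Lc m' w' := by
      rw [← h0]
      exact GG_eq hL hδ0 hc hD2 hD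
    exact inj_frame hL (q := q) (by omega) hD2 hD' hμ h3
  · exfalso
    have hT : (T k) ^ ((2 : ℤ) + 4 * q) = T k * T k := by
      rw [Tm_four, show (2 : ℤ) = 1 + 1 by norm_num, zpow_add, zpow_one]
    have h1 := ar_rel hqr hμ h0 1
    have h3 := ar_rel hqr hμ h0 3
    rw [hT, Equiv.Perm.mul_apply, T_one, T_two] at h1
    rw [hT, Equiv.Perm.mul_apply, T_three, T_zero] at h3
    rw [h1, h3] at hgap
    linarith
  · -- the point `w` is on the side after its gate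
    have hT : (T k) ^ ((3 : ℤ) + 4 * q) = (T k).symm := by
      rw [Tm_four]
      have h5 : (T k) ^ (3 : ℤ) * T k = 1 := by
        rw [← zpow_add_one]
        exact T_four
      exact eq_inv_of_mul_eq_one_left h5
    have h1 := ar_rel hqr hμ h0 0
    have h2 := ar_rel hqr hμ h0 2
    have e1 : (T k).symm 0 = 3 := (Equiv.symm_apply_eq _).2 T_three.symm
    have e3 : (T k).symm 2 = 1 := (Equiv.symm_apply_eq _).2 T_one.symm
    rw [hT, e1] at h1
    rw [hT, e3] at h2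
    have hk : 2 * δ < (w 0).re - m * Lf R w := by
      rw [← hdiff, h1, h2]
      linarith
    have hD2 : w ∈ DD k R c δ (m + 1) := by
      refine ⟨hw, ?_⟩
      push_cast
      rw [abs_lt]
      constructor <;> nlinarith [hn'.1, hn'.2]
    have h3 : GG R Lc (m + 1) w = μ • GG R Lc m' w' := by
      rw [← h0]
      exact GG_eq hL hδ0 hc hD2 hD
    exact inj_frame hL (q := q + 1) (by omega) hD2 hD' hμ h3

theorem gm_trace (hL : LocSpec R c δ Lc) (hδ0 : 0 < δ) (hδ : 4 * δ < c) (hc : 0 < c)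
    {w : Fin (k + 3) → ℂ} (hw : c < Lf R w)
    (h : Gm R Lc w 0 + Complex.I * Gm R Lc w 2 = 0) :
    ∃ m : ℤ, (w 0).re = 2 * m * Lf R w ∧
      ((Even m ∧ ee (2 * (w 0).im) = -Complex.I) ∨ (Odd m ∧ ee (2 * (w 0).im) = Complex.I)) := by
  set m := near R w with hm
  have hD : w ∈ DD k R c δ m := near_mem hδ hc hw
  have hgap := near_gap hL hc hw
  rw [← hm] at hgap
  have h0 : GG R Lc m w 0 + Complex.I * GG R Lc m w 2 = 0 := h
  have h1 : Lc (yy R m w) (((T k) ^ m).symm 0) + Complex.I * Lc (yy R m w) (((T k) ^ m).symm 2) =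
      0 := by
    unfold GG at h0
    have h2 : ee (m * (w 0).im) * (Lc (yy R m w) (((T k) ^ m).symm 0) +
        Complex.I * Lc (yy R m w) (((T k) ^ m).symm 2)) = 0 := by
      rw [← h0]
      ring
    rcases mul_eq_zero.1 h2 with h3 | h3
    · exact absurd h3 (ee_ne_zero _)
    · exact h3
  have har : ar (Lc (yy R m w) (((T k) ^ m).symm 0)) =
      ar (Lc (yy R m w) (((T k) ^ m).symm 2)) := by
    have h3 : Lc (yy R m w) (((T k) ^ m).symm 0) =
        (-Complex.I) * Lc (yy R m w) (((T k) ^ m).symm 2) := by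
      linear_combination h1
    rw [h3, ar_mul_of_norm_one (by simp)]
  have hdiff := hL.diff (yy R m w) (mem_yy hD).1 (mem_yy hD).2
  rw [yy_re] at hdiff
  have hII : Complex.I * Complex.I = -1 := Complex.I_mul_I
  obtain ⟨q, r, hr0, hr4, hqr⟩ : ∃ q r : ℤ, 0 ≤ r ∧ r < 4 ∧ m = r + 4 * q :=
    ⟨m / 4, m % 4, Int.emod_nonneg _ (by norm_num), Int.emod_lt_of_pos _ (by norm_num), by omega⟩
  have hcases : r = 0 ∨ r = 1 ∨ r = 2 ∨ r = 3 := by omega
  rcases hcases with rfl | rfl | rfl | rfl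
  · have hT : (T k) ^ m = 1 := by rw [hqr, Tm_four, zpow_zero]
    rw [hT] at h1 har
    change Lc (yy R m w) 0 + Complex.I * Lc (yy R m w) 2 = 0 at h1
    change ar (Lc (yy R m w) 0) = ar (Lc (yy R m w) 2) at har
    rw [har, sub_self] at hdiff
    obtain ⟨t1, t2⟩ := hL.trace (yy R m w) (mem_yy hD).1 (by rw [yy_re]; exact hdiff.symm)
    rw [yy_im] at t1
    refine ⟨2 * q, ?_, Or.inl ⟨⟨q, by ring⟩, ?_⟩⟩
    · have h4 : (w 0).re = m * Lf R w := by linarith
      rw [h4, hqr]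
      push_cast
      ring
    · rw [t1] at h1
      have h5 : (ee (2 * (w 0).im) + Complex.I) * Lc (yy R m w) 2 = 0 := by
        rw [add_mul]
        exact h1
      rcases mul_eq_zero.1 h5 with h6 | h6
      · linear_combination h6
      · exact absurd h6 t2
  · exfalso
    have hT : (T k) ^ m = T k := by rw [hqr, Tm_four, zpow_one]
    have e1 : (T k).symm 0 = 3 := (Equiv.symm_apply_eq _).2 T_three.symm
    have e3 : (T k).symm 2 = 1 := (Equiv.symm_apply_eq _).2 T_one.symm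
    rw [hT, e1, e3] at har
    linarith
  · have hT : (T k) ^ m = T k * T k := by
      rw [hqr, Tm_four, show (2 : ℤ) = 1 + 1 by norm_num, zpow_add, zpow_one]
    have e1 : (T k * T k).symm 0 = 2 := by
      rw [Equiv.symm_apply_eq, Equiv.Perm.mul_apply, T_two, T_three]
    have e3 : (T k * T k).symm 2 = 0 := by
      rw [Equiv.symm_apply_eq, Equiv.Perm.mul_apply, T_zero, T_one]
    rw [hT, e1, e3] at h1 har
    rw [har, sub_self] at hdiff
    obtain ⟨t1, t2⟩ := hL.trace (yy R m w) (mem_yy hD).1 (by rw [yy_re]; exact hdiff.symm)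
    rw [yy_im] at t1
    refine ⟨2 * q + 1, ?_, Or.inr ⟨⟨q, by ring⟩, ?_⟩⟩
    · have h4 : (w 0).re = m * Lf R w := by linarith
      rw [h4, hqr]
      push_cast
      ring
    · rw [t1] at h1
      have h5 : (1 + Complex.I * ee (2 * (w 0).im)) * Lc (yy R m w) 2 = 0 := by
        rw [add_mul, one_mul, mul_assoc]
        exact h1
      rcases mul_eq_zero.1 h5 with h6 | h6
      · linear_combination (-Complex.I) * h6 + ee (2 * (w 0).im) * hII
      · exact absurd h6 t2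
  · exfalso
    have hT : (T k) ^ m = (T k).symm := by
      rw [hqr, Tm_four]
      have h5 : (T k) ^ (3 : ℤ) * T k = 1 := by
        rw [← zpow_add_one]
        exact T_four
      exact eq_inv_of_mul_eq_one_left h5
    rw [hT, Equiv.symm_symm, T_zero, T_two] at har
    linarith

/-- `GamSpec` from the model map near one gate. -/
theorem gamSpec_of_loc (hL : LocSpec R c δ Lc) (hδ0 : 0 < δ) (hδ : 4 * δ < c) :
    GamSpec R c (Gm R Lc) := by
  have hc : 0 < c := by linarith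
  refine ⟨?_, ?_, ?_, ?_, ?_, ?_⟩
  · intro w hw
    have hD := near_mem (δ := δ) hδ hc hw
    exact ((GG_contDiffAt hL hD).congr_of_eventuallyEq
      (Gm_eventually hL hδ0 hδ hc hD)).contDiffWithinAt
  · intro w hw
    have hD := near_mem (δ := δ) hδ hc hw
    exact ((GG_sympAt hL hD).congr (Gm_eventually hL hδ0 hδ hc hD)).om
  · intro w hw
    exact GG_sphere hL (near_mem (δ := δ) hδ hc hw)
  · intro w w' hw hw' lam hlam h
    exact gm_inj hL hδ0 hδ hc hw hw' hlam h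
  · intro w hw h
    exact gm_trace hL hδ0 hδ hc hw h
  · intro w hw j
    have hD := near_mem (δ := δ) hδ hc hw
    show GG R Lc (near R w) w j.succ.succ.succ.succ = _
    unfold GG
    have h1 : ((T k) ^ (near R w)).symm j.succ.succ.succ.succ = j.succ.succ.succ.succ :=
      (Equiv.symm_apply_eq _).2 (Tm_big _ j).symm
    rw [h1, hL.single _ (mem_yy hD).1 (mem_yy hD).2]
    show _ * Fr R (near R w) w ((S k ^ near R w) j.succ.succ.succ) = _
    rw [Sm_big, Fr_ne _ _ _ (Fin.succ_ne_zero _), cf_big, ← mul_assoc, ← ee_add]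
    rw [show (near R w : ℝ) * (w 0).im + -(near R w * ((1 : ℤ) : ℝ) * (w 0).im) = 0 by
      push_cast; ring, ee_zero, one_mul]

end Main

end Vale.Agent.P209.H974
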