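import Vale.Agent.P209.H684.Defs

/-!
# From one gate to the whole 4-cycle model

`LocSpec` describes the model map near the gate `0` (between the gates `-1` and `1`); `GamSpec`
follows by the integral shears, the exchange of the two pairs and the rotation of the four
homogeneous coordinates.
-/

namespace Vale.Agent.P209.H974

open Vale.Agent.P209 Vale.Agent.P209.Strong Vale.Agent.P209.H684
open scoped ContDiff

/-- The map near the gate `0`; `κ = (w 0).re`, `θ = (w 0).im`. The coordinates `0, 2` belong to the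
slot `1` (active pair), `3, 1` to the slot `2`. -/
structure LocSpec {k : ℕ} (R c δ : ℝ) (Lc : (Fin (k + 3) → ℂ) → (Fin (k + 4) → ℂ)) : Prop where
  /-- smooth on the domain `|κ| < L - 2 δ` -/
  smooth : ContDiffOn ℝ ∞ Lc {w | c < Lf R w ∧ |(w 0).re| < Lf R w - 2 * δ}
  /-- symplectic -/
  sympl : ∀ w, c < Lf R w → |(w 0).re| < Lf R w - 2 * δ → ∀ v v',
    omega (fderiv ℝ Lc w v) (fderiv ℝ Lc w v') = omega v v'
  /-- with values in the sphere of capacity `R` -/
  sphere : ∀ w, c < Lf R w → |(w 0).re| < Lf R w - 2 * δ → Real.pi * ∑ j, ‖Lc w j‖ ^ 2 = R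
  /-- the coordinate `1` is the slot `2` -/
  one : ∀ w, c < Lf R w → |(w 0).re| < Lf R w - 2 * δ → Lc w 1 = w 2
  /-- the single coordinates are not changed -/
  single : ∀ w, c < Lf R w → |(w 0).re| < Lf R w - 2 * δ →
    ∀ j : Fin k, Lc w j.succ.succ.succ.succ = w j.succ.succ.succ
  /-- the coordinate `3` is real and positive -/
  three : ∀ w, c < Lf R w → |(w 0).re| < Lf R w - 2 * δ → 0 < (Lc w 3).re ∧ (Lc w 3).im = 0
  /-- the difference of the actions of the active pair -/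
  diff : ∀ w, c < Lf R w → |(w 0).re| < Lf R w - 2 * δ → ar (Lc w 0) - ar (Lc w 2) = (w 0).re
  /-- the gap of the other pair, for the nearest gate -/
  gap : ∀ w, c < Lf R w → |(w 0).re| ≤ Lf R w / 2 → 2 * δ < ar (Lc w 3) - ar (Lc w 1)
  /-- the explicit form on the side after the gate -/
  right : ∀ w, c < Lf R w → |(w 0).re| < Lf R w - 2 * δ → 2 * δ ≤ (w 0).re →
    Lc w 0 = ee (w 0).im * (Real.sqrt ((ar (w 1) + (w 0).re) / Real.pi) : ℝ) ∧
    Lc w 2 = ee (-(w 0).im) * w 1 ∧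
    Lc w 3 = (Real.sqrt ((ar (w 2) + Lf R w - (w 0).re) / Real.pi) : ℝ)
  /-- the explicit form on the side before the gate -/
  left : ∀ w, c < Lf R w → |(w 0).re| < Lf R w - 2 * δ → (w 0).re ≤ -(2 * δ) →
    Lc w 0 = ee (w 0).im * w 1 ∧
    Lc w 2 = ee (-(w 0).im) * (Real.sqrt ((ar (w 1) - (w 0).re) / Real.pi) : ℝ) ∧
    Lc w 3 = (Real.sqrt ((ar (w 2) + Lf R w + (w 0).re) / Real.pi) : ℝ)
  /-- injective modulo `θ ↦ θ + l` -/
  inj : ∀ w w', c < Lf R w → |(w 0).re| < Lf R w - 2 * δ → c < Lf R w' →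
    |(w' 0).re| < Lf R w' - 2 * δ → Lc w = Lc w' →
    ∃ l : ℤ, w' = w + Pi.single 0 ((l : ℂ) * Complex.I)
  /-- the angle at the gate -/
  trace : ∀ w, c < Lf R w → (w 0).re = 0 →
    Lc w 0 = ee (2 * (w 0).im) * Lc w 2 ∧ Lc w 2 ≠ 0

end Vale.Agent.P209.H974
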