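import Vale.Agent.P209.H687.Strip3
import Vale.Agent.P209.H974.StripInj

/-!
# Row STRIP of the model `M`, from the other rows
-/

namespace Vale.Agent.P209.H974.SI

open Vale.Agent.P209.H687

/-- Row STRIP. -/
theorem rowStrip (hLS : RowLS) (hLA : RowLA) (hMS : RowMS) (hML : RowML) (hMI : RowMI)
    (hGC : RowGC) (hTQ : RowTQ) : RowStrip :=
  rowStrip_of hLS hLA hMS hML hGC hTQ fun R c m η D hH =>
    strip_inj D hLS hLA hMS hML hMI hGC hH fun w hu h hI => G0_seam D hTQ hH hu h hI

end Vale.Agent.P209.H974.SI
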